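import Vale.Agent.P065.UB.H616.Star

/-!
# P065, upper bound: the projective chart (helper616)

`l0` is the line of slope `m0` through `o`. The chart is `v ↦ (U / V, 1 / V)`, where
`U = v.1 - o.1` and `V = ht m0 v - ht m0 o`. A point `p` sees `v` with slope `m`, and
`1 / (m - m0) = (x - U(p) y) / (1 - V(p) y)` in the chart; so the windows of the points of `l0` are
pairwise disjoint families of parallel strips `x - U(p) y ∈ Z`, with the SAME `Z` for every `p`.
Boxes of the chart (four sides) are intersections of five half-planes of the original plane.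
-/

set_option autoImplicit false

namespace Vale.Agent.P065.UB.H616

open Finset Vale.Agent.P065.UB

/-- abscissa relative to `o` -/
def chU (o v : Pt) : ℝ := v.1 - o.1

/-- height over the line of slope `m0` through `o` -/
def chV (m0 : ℝ) (o v : Pt) : ℝ := ht m0 v - ht m0 o

/-- first coordinate of the chart -/
noncomputable def chX (m0 : ℝ) (o v : Pt) : ℝ := chU o v / chV m0 o v

/-- second coordinate of the chart -/
noncomputable def chY (m0 : ℝ) (o v : Pt) : ℝ := 1 / chV m0 o v

/-- the chart -/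
noncomputable def chart (m0 : ℝ) (o v : Pt) : ℝ × ℝ := (chX m0 o v, chY m0 o v)

/-- inverse of the slope, measured from `m0` -/
noncomputable def zt (m0 : ℝ) (m : ℝ) : ℝ := 1 / (m - m0)

theorem chU_self (o : Pt) : chU o o = 0 := by simp [chU]

theorem chV_self (m0 : ℝ) (o : Pt) : chV m0 o o = 0 := by simp [chV]

theorem sl_sub (m0 : ℝ) (o : Pt) {p v : Pt} (h : p.1 ≠ v.1) :
    sl p v - m0 = (chV m0 o v - chV m0 o p) / (chU o v - chU o p) := by
  have h' : v.1 - p.1 ≠ 0 := sub_ne_zero.2 (Ne.symm h)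
  have e1 : chU o v - chU o p = v.1 - p.1 := by unfold chU; ring
  have e2 : chV m0 o v - chV m0 o p = (v.2 - p.2) - m0 * (v.1 - p.1) := by
    unfold chV ht; ring
  rw [e1, e2, sub_div, mul_div_assoc, div_self h', mul_one]
  rfl

theorem chV_eq (m0 : ℝ) (o : Pt) {p v : Pt} (h : p.1 ≠ v.1) :
    chV m0 o v - chV m0 o p = (sl p v - m0) * (v.1 - p.1) := by
  have h' : v.1 - p.1 ≠ 0 := sub_ne_zero.2 (Ne.symm h)
  unfold chV ht sl
  field_simp
  ring

/-- **the chart formula** -/
theorem zt_sl (m0 : ℝ) (o : Pt) {p v : Pt} (h : p.1 ≠ v.1) (hv : chV m0 o v ≠ 0)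
    (hm : sl p v ≠ m0) :
    chX m0 o v - chU o p * chY m0 o v
      = zt m0 (sl p v) * (1 - chV m0 o p * chY m0 o v) := by
  have h' : v.1 - p.1 ≠ 0 := sub_ne_zero.2 (Ne.symm h)
  have hm' : sl p v - m0 ≠ 0 := sub_ne_zero.2 hm
  have e := chV_eq m0 o h
  have e1 : chU o v - chU o p = v.1 - p.1 := by unfold chU; ring
  unfold chX chY zt
  have l : chU o v / chV m0 o v - chU o p * (1 / chV m0 o v)
      = (v.1 - p.1) / chV m0 o v := by rw [← e1]; ring
  have r : 1 / (sl p v - m0) * (1 - chV m0 o p * (1 / chV m0 o v))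
      = (chV m0 o v - chV m0 o p) / (sl p v - m0) / chV m0 o v := by
    field_simp
  rw [l, r, e, mul_div_cancel_left₀ _ hm']

/-- a point of the line `l0`: no error -/
theorem zt_sl_on (m0 : ℝ) (o : Pt) {p v : Pt} (hp : chV m0 o p = 0) (h : p.1 ≠ v.1)
    (hv : chV m0 o v ≠ 0) :
    chX m0 o v - chU o p * chY m0 o v = zt m0 (sl p v) := by
  have hm : sl p v ≠ m0 := by
    intro hm
    have := chV_eq m0 o h
    rw [hp, sub_zero, hm, sub_self, zero_mul] at this
    exact hv this
  rw [zt_sl m0 o h hv hm, hp, zero_mul, sub_zero, mul_one]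

/-- **the error** for a point off the line `l0` -/
theorem zt_err (m0 : ℝ) (o : Pt) {p v : Pt} (h : p.1 ≠ v.1) (hv : chV m0 o v ≠ 0)
    (hm : sl p v ≠ m0) :
    |chX m0 o v - chU o p * chY m0 o v - zt m0 (sl p v)|
      = |zt m0 (sl p v)| * |chV m0 o p| * |chY m0 o v| := by
  rw [zt_sl m0 o h hv hm, ← abs_mul, ← abs_mul, ← abs_neg]
  congr 1
  ring

/-- recover `U`, `V` from the chart -/
theorem chart_inj (m0 : ℝ) (o : Pt) {v w : Pt} (hv : chV m0 o v ≠ 0) (hw : chV m0 o w ≠ 0)
    (h : chart m0 o v = chart m0 o w) : v = w := by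
  have hx : chX m0 o v = chX m0 o w := congrArg Prod.fst h
  have hy : chY m0 o v = chY m0 o w := congrArg Prod.snd h
  have hV : chV m0 o v = chV m0 o w := by
    unfold chY at hy
    rw [one_div, one_div] at hy
    exact inv_injective hy
  have hU : chU o v = chU o w := by
    unfold chX at hx
    rw [hV] at hx
    exact (div_left_inj' hw).1 hx
  unfold chU at hU
  unfold chV ht at hV
  have h1 : v.1 = w.1 := by linarith
  have h2 : v.2 = w.2 := by rw [h1] at hV; linarith
  exact Prod.ext h1 h2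

/-! ### windows -/

/-- the window in the chart -/
def Zw (m0 : ℝ) (I : Set ℝ) : Set ℝ := zt m0 '' I

theorem zt_injOn (m0 : ℝ) : Function.Injective (zt m0) := by
  intro a b h
  unfold zt at h
  rw [one_div, one_div] at h
  have := inv_injective h
  linarith

theorem Zw_disjoint (m0 : ℝ) {I J : Set ℝ} (h : Disjoint I J) : Disjoint (Zw m0 I) (Zw m0 J) :=
  (Set.disjoint_image_iff (zt_injOn m0)).2 h

theorem mem_Zw (m0 : ℝ) {I : Set ℝ} {m : ℝ} (hm : m ∈ I) : zt m0 m ∈ Zw m0 I := ⟨m, hm, rfl⟩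

/-- an interval of slopes that avoids `m0` lies on one side of `m0` -/
theorem side_of_not_mem {m0 : ℝ} {I : Set ℝ} (hI : I.OrdConnected) (h0 : m0 ∉ I) :
    (∀ m ∈ I, m0 < m) ∨ (∀ m ∈ I, m < m0) := by
  by_contra hcon
  push Not at hcon
  obtain ⟨⟨a, ha, ha0⟩, ⟨b, hb, hb0⟩⟩ := hcon
  exact h0 (hI.out ha hb ⟨ha0, hb0⟩)

/-- **windows are intervals in the chart** -/
theorem Zw_ordConnected {m0 : ℝ} {I : Set ℝ} (hI : I.OrdConnected) (h0 : m0 ∉ I) :
    (Zw m0 I).OrdConnected := by
  refine ⟨?_⟩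
  rintro _ ⟨a, ha, rfl⟩ _ ⟨b, hb, rfl⟩ z ⟨hz1, hz2⟩
  unfold zt at hz1 hz2
  rcases side_of_not_mem hI h0 with h | h
  · have ha' : 0 < a - m0 := by linarith [h a ha]
    have hb' : 0 < b - m0 := by linarith [h b hb]
    have hz : 0 < z := lt_of_lt_of_le (by positivity) hz1
    refine ⟨m0 + 1 / z, hI.out hb ha ⟨?_, ?_⟩, ?_⟩
    · have : b - m0 ≤ 1 / z := by
        rw [le_div_iff₀ hz]
        calc (b - m0) * z ≤ (b - m0) * (1 / (b - m0)) := by gcongr
          _ = 1 := by field_simp
      linarith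
    · have : 1 / z ≤ a - m0 := by
        rw [div_le_iff₀ hz]
        calc 1 = (a - m0) * (1 / (a - m0)) := by field_simp
          _ ≤ (a - m0) * z := by gcongr
      linarith
    · unfold zt
      rw [add_sub_cancel_left, one_div_one_div]
  · have ha' : a - m0 < 0 := by linarith [h a ha]
    have hb' : b - m0 < 0 := by linarith [h b hb]
    have hz : z < 0 := lt_of_le_of_lt hz2 (by rw [one_div]; exact inv_lt_zero.2 hb')
    refine ⟨m0 + 1 / z, hI.out hb ha ⟨?_, ?_⟩, ?_⟩
    · have : b - m0 ≤ 1 / z := by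
        rw [le_div_iff_of_neg hz]
        have : (b - m0) * (1 / (b - m0)) = 1 := by
          rw [mul_one_div, div_self hb'.ne]
        calc 1 = (b - m0) * (1 / (b - m0)) := this.symm
          _ ≤ (b - m0) * z := mul_le_mul_of_nonpos_left hz2 hb'.le
      linarith
    · have : 1 / z ≤ a - m0 := by
        rw [div_le_iff_of_neg hz]
        have : (a - m0) * (1 / (a - m0)) = 1 := by
          rw [mul_one_div, div_self ha'.ne]
        calc (a - m0) * z ≤ (a - m0) * (1 / (a - m0)) := mul_le_mul_of_nonpos_left hz1 ha'.le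
          _ = 1 := this
      linarith
    · unfold zt
      rw [add_sub_cancel_left, one_div_one_div]

/-! ### boxes -/

/-- a box of the chart on the side `0 < σ V` -/
def ChBox (σ m0 : ℝ) (o : Pt) (al s0 h0 t r : ℝ) (v : Pt) : Prop :=
  0 < σ * chV m0 o v ∧ |chX m0 o v + al * chY m0 o v - s0| ≤ t ∧ |chY m0 o v - h0| ≤ r

/-- the five half-planes of a box of the chart -/
def chHP (σ m0 : ℝ) (o : Pt) (al s0 h0 t r : ℝ) : Fin 5 → Pt → Prop
  | 0, v => 0 < σ * chV m0 o v
  | 1, v => chU o v + al - s0 * chV m0 o v ≤ t * (σ * chV m0 o v)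
  | 2, v => -(chU o v + al - s0 * chV m0 o v) ≤ t * (σ * chV m0 o v)
  | 3, v => 1 - h0 * chV m0 o v ≤ r * (σ * chV m0 o v)
  | 4, v => -(1 - h0 * chV m0 o v) ≤ r * (σ * chV m0 o v)

theorem chBox_iff {σ : ℝ} (hσ : σ = 1 ∨ σ = -1) (m0 : ℝ) (o : Pt) (al s0 h0 t r : ℝ) (v : Pt) :
    ChBox σ m0 o al s0 h0 t r v ↔ ∀ i : Fin 5, chHP σ m0 o al s0 h0 t r i v := by
  have key : 0 < σ * chV m0 o v →
      ((|chX m0 o v + al * chY m0 o v - s0| ≤ t ↔
        |chU o v + al - s0 * chV m0 o v| ≤ t * (σ * chV m0 o v)) ∧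
      (|chY m0 o v - h0| ≤ r ↔ |1 - h0 * chV m0 o v| ≤ r * (σ * chV m0 o v))) := by
    intro hpos
    have hV : chV m0 o v ≠ 0 := by
      rintro h; rw [h, mul_zero] at hpos; exact lt_irrefl _ hpos
    have habs : |chV m0 o v| = σ * chV m0 o v := by
      rcases hσ with h | h
      · rw [h, one_mul] at hpos ⊢
        exact abs_of_pos hpos
      · rw [h] at hpos ⊢
        rw [neg_one_mul] at hpos ⊢
        exact abs_of_neg (by linarith)
    rw [← habs]
    rw [← habs] at hpos
    constructor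
    · have : chX m0 o v + al * chY m0 o v - s0
          = (chU o v + al - s0 * chV m0 o v) / chV m0 o v := by
        unfold chX chY; field_simp
      rw [this, abs_div, div_le_iff₀ hpos]
    · have : chY m0 o v - h0 = (1 - h0 * chV m0 o v) / chV m0 o v := by
        unfold chY; field_simp
      rw [this, abs_div, div_le_iff₀ hpos]
  constructor
  · rintro ⟨h1, h2, h3⟩
    rw [(key h1).1, abs_le] at h2
    rw [(key h1).2, abs_le] at h3
    intro i
    fin_cases i
    · exact h1
    · exact h2.2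
    · show -(chU o v + al - s0 * chV m0 o v) ≤ t * (σ * chV m0 o v)
      linarith [h2.1]
    · exact h3.2
    · show -(1 - h0 * chV m0 o v) ≤ r * (σ * chV m0 o v)
      linarith [h3.1]
  · intro h
    have h0 := h 0
    have h1 := h 1
    have h2 := h 2
    have h3 := h 3
    have h4 := h 4
    simp only [chHP] at h0 h1 h2 h3 h4
    refine ⟨h0, (key h0).1.2 (abs_le.2 ⟨by linarith, h1⟩), (key h0).2.2 (abs_le.2 ⟨by linarith, h3⟩)⟩

/-- linear inequalities in `U`, `V` are half-planes -/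
theorem isHP_UV (m0 : ℝ) (o : Pt) (a b c : ℝ) :
    IsHP (fun v : Pt => a * chU o v + b * chV m0 o v ≤ c) := by
  have h := isHP_lin (a - b * m0) b (c + a * o.1 + b * ht m0 o)
  have e : (fun v : Pt => (a - b * m0) * v.1 + b * v.2 ≤ c + a * o.1 + b * ht m0 o)
      = (fun v : Pt => a * chU o v + b * chV m0 o v ≤ c) := by
    funext v
    apply propext
    unfold chU chV
    have : ht m0 v = v.2 - m0 * v.1 := rfl
    rw [this]
    constructor <;> intro h <;> linarith
  rwa [e] at h

theorem isHP_UV_lt (m0 : ℝ) (o : Pt) (a b c : ℝ) :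
    IsHP (fun v : Pt => a * chU o v + b * chV m0 o v < c) := by
  have h := (isHP_UV m0 o (-a) (-b) (-c)).compl
  have e : (fun v : Pt => ¬ (-a * chU o v + -b * chV m0 o v ≤ -c))
      = (fun v : Pt => a * chU o v + b * chV m0 o v < c) := by
    funext v
    apply propext
    rw [not_le]
    constructor <;> intro h <;> linarith
  rwa [e] at h

theorem chHP_isHP (σ m0 : ℝ) (o : Pt) (al s0 h0 t r : ℝ) (i : Fin 5) :
    IsHP (chHP σ m0 o al s0 h0 t r i) := by
  fin_cases i
  · have h := isHP_UV_lt m0 o 0 (-σ) 0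
    have e : (fun v : Pt => 0 * chU o v + -σ * chV m0 o v < 0)
        = chHP σ m0 o al s0 h0 t r 0 := by
      funext v
      apply propext
      simp only [chHP]
      constructor <;> intro h <;> linarith
    rw [e] at h
    exact h
  · have h := isHP_UV m0 o 1 (-s0 - t * σ) (-al)
    have e : (fun v : Pt => 1 * chU o v + (-s0 - t * σ) * chV m0 o v ≤ -al)
        = chHP σ m0 o al s0 h0 t r 1 := by
      funext v
      apply propext
      simp only [chHP]
      constructor <;> intro h <;> nlinarith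
    rw [e] at h
    exact h
  · have h := isHP_UV m0 o (-1) (s0 - t * σ) al
    have e : (fun v : Pt => -1 * chU o v + (s0 - t * σ) * chV m0 o v ≤ al)
        = chHP σ m0 o al s0 h0 t r 2 := by
      funext v
      apply propext
      simp only [chHP]
      constructor <;> intro h <;> nlinarith
    rw [e] at h
    exact h
  · have h := isHP_UV m0 o 0 (-h0 - r * σ) (-1)
    have e : (fun v : Pt => 0 * chU o v + (-h0 - r * σ) * chV m0 o v ≤ -1)
        = chHP σ m0 o al s0 h0 t r 3 := by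
      funext v
      apply propext
      simp only [chHP]
      constructor <;> intro h <;> nlinarith
    rw [e] at h
    exact h
  · have h := isHP_UV m0 o 0 (h0 - r * σ) 1
    have e : (fun v : Pt => 0 * chU o v + (h0 - r * σ) * chV m0 o v ≤ 1)
        = chHP σ m0 o al s0 h0 t r 4 := by
      funext v
      apply propext
      simp only [chHP]
      constructor <;> intro h <;> nlinarith
    rw [e] at h
    exact h

/-! ### the inequality (STAR) in the chart -/

open Classical in
/-- **(STAR) in the chart**: `R w` = points of `Q` with at least `D w` edges of the window `w` -/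
theorem star_chart (hDey : StDey) (hRank : StRank) : ∃ C : ℝ, 1 ≤ C ∧ ∀ (P : Finset Pt) (k : ℕ)
    (Q : Finset Pt), Good P → Q ⊆ P → ∀ {κ : Type} (W : Finset κ) (I : κ → Set ℝ),
    (∀ w ∈ W, (I w).OrdConnected) →
    (∀ w ∈ W, ∀ w' ∈ W, w ≠ w' → Disjoint (I w) (I w')) →
    (∀ w ∈ W, 8 * (#(EdBd P k Q (I w)) + 1) ≤ #(Tch P k Q (I w))) →
    ∀ (R : κ → Finset Pt) (D : κ → ℝ), (∀ w ∈ W, 0 ≤ D w) → (∀ w ∈ W, R w ⊆ Q) →
    (∀ w ∈ W, ∀ x ∈ R w, D w ≤ dg P k Q (I w) x) →
    ∀ (σ m0 : ℝ) (o : Pt) (al s0 h0 t r : ℝ), (σ = 1 ∨ σ = -1) →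
    ∑ w ∈ W with 40 * (#(Tch P k Q (I w)) : ℝ)
          ≤ D w * #{x ∈ R w | ChBox σ m0 o al s0 h0 t r x},
        (D w * #{x ∈ R w | ChBox σ m0 o al s0 h0 t r x}) ^ 3 / (#(Tch P k Q (I w)) : ℝ) ^ 2
      ≤ C * (#{x ∈ Q | ChBox σ m0 o al s0 h0 t r x} : ℝ) ^ 2 := by
  obtain ⟨C, hC, h⟩ := star hDey hRank
  refine ⟨C * 25, by linarith, fun P k Q hP hQ κ W I hIc hId hbd R D hD hRQ hR σ m0 o al s0 h0 t r
    hσ => ?_⟩
  set W' := {w ∈ W | 40 * (#(Tch P k Q (I w)) : ℝ)
          ≤ D w * #{x ∈ R w | ChBox σ m0 o al s0 h0 t r x}} with hW'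
  have hsub : ∀ w ∈ W', w ∈ W := fun w hw => (mem_filter.1 hw).1
  have := h P k Q hP hQ W' I (fun w hw => hIc w (hsub w hw))
    (fun w hw w' hw' => hId w (hsub w hw) w' (hsub w' hw'))
    (fun w hw => hbd w (hsub w hw)) (univ : Finset (Fin 5)) (chHP σ m0 o al s0 h0 t r)
    (fun i _ => chHP_isHP σ m0 o al s0 h0 t r i) univ_nonempty
    {x ∈ Q | ChBox σ m0 o al s0 h0 t r x}
    (fun v => by
      rw [mem_filter, chBox_iff hσ]
      simp)
    R D (fun w hw => hD w (hsub w hw)) (fun w hw => hR w (hsub w hw))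
    (fun w => #{x ∈ R w | ChBox σ m0 o al s0 h0 t r x})
    (fun w hw => ⟨{x ∈ R w | ChBox σ m0 o al s0 h0 t r x}, filter_subset _ _,
      fun x hx => by
        rw [mem_filter] at hx ⊢
        exact ⟨hRQ w (hsub w hw) hx.1, hx.2⟩, le_rfl⟩)
    (fun w hw => by
      rw [card_univ, Fintype.card_fin]
      have := (mem_filter.1 hw).2
      push_cast
      linarith)
  rw [card_univ, Fintype.card_fin] at this
  refine this.trans (le_of_eq ?_)
  push_cast
  ring

end Vale.Agent.P065.UB.H616
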