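import Vale.Agent.P065.UB.Win

/-!
# P065, upper bound: the swap inequality `S ≥ c min (E^(3/2), E^3 / V^2)` (helper616)

For every `Q ⊆ P` and every interval `I` of slopes, the number `S` of pairs of `Q` with slope in
`I`, the number `E` of `k`-edges inside `Q` and the number `V` of `k`-edges leaving `Q` (slopes in
`I`) satisfy `E ^ 3 ≤ C * S * (E ^ (3/2) + V ^ 2)`.
-/

set_option autoImplicit false

namespace Vale.Agent.P065.UB.H616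

open Finset Vale.Agent.P065.UB Vale.Agent.P065.UB.Win266

/-- edges are swapped pairs -/
theorem card_EdIn_le_Sw {P : Finset Pt} {k : ℕ} {Q : Finset Pt} {I : Set ℝ} :
    #(EdIn P k Q I) ≤ #(Sw Q I) := by
  classical
  refine card_le_card fun e he => ?_
  rw [mem_EdIn] at he
  obtain ⟨h1, h2, h3, h4⟩ := he
  simp only [Ed, mem_filter, mem_product] at h1
  simp only [Sw, mem_filter, mem_product]
  exact ⟨⟨h2, h3⟩, h1.2.1, h4⟩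

/-- abstract summation -/
theorem sum_pow {M : ℕ} (_hM : 1 ≤ M) (R : Finset ℕ) (hR : #R ≤ M) (Ej Sj : ℕ → ℝ) {E S a b : ℝ}
    (hE0 : ∀ j, 0 ≤ Ej j) (hS0 : ∀ j, 0 ≤ Sj j) (hb : 0 ≤ b) (ha : 0 ≤ a)
    (hE : E ≤ ∑ j ∈ R, Ej j) (hS : ∑ j ∈ R, Sj j ≤ S)
    (h : ∀ j ∈ R, Ej j ≤ a ∨ (Ej j) ^ (3 / 2 : ℝ) ≤ b * Sj j) (hMa : M * a ≤ E / 2) :
    (E / 2) ^ (3 / 2 : ℝ) ≤ (M : ℝ) ^ (1 / 2 : ℝ) * (b * S) := by
  classical
  have hE' : 0 ≤ E / 2 := le_trans (by positivity) hMa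
  set G : Finset ℕ := {j ∈ R | (Ej j) ^ (3 / 2 : ℝ) ≤ b * Sj j} with hG
  have h1 : ∑ j ∈ R with ¬ ((Ej j) ^ (3 / 2 : ℝ) ≤ b * Sj j), Ej j ≤ E / 2 := by
    calc ∑ j ∈ R with ¬ ((Ej j) ^ (3 / 2 : ℝ) ≤ b * Sj j), Ej j
        ≤ ∑ j ∈ R with ¬ ((Ej j) ^ (3 / 2 : ℝ) ≤ b * Sj j), a := by
          refine sum_le_sum fun j hj => ?_
          rw [mem_filter] at hj
          rcases h j hj.1 with h | h
          · exact h
          · exact absurd h hj.2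
      _ ≤ ∑ j ∈ R, a := sum_le_sum_of_subset_of_nonneg (filter_subset _ _) fun _ _ _ => ha
      _ = #R * a := by rw [sum_const, nsmul_eq_mul]
      _ ≤ M * a := by gcongr
      _ ≤ _ := hMa
  have h2 : E / 2 ≤ ∑ j ∈ G, Ej j := by
    have := sum_filter_add_sum_filter_not R (fun j => (Ej j) ^ (3 / 2 : ℝ) ≤ b * Sj j) Ej
    rw [← hG] at this
    linarith
  have h3 := Real.rpow_sum_le_const_mul_sum_rpow_of_nonneg (s := G) (f := Ej)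
    (p := (3 / 2 : ℝ)) (by norm_num) (fun j _ => hE0 j)
  have h4 : ∑ j ∈ G, (Ej j) ^ (3 / 2 : ℝ) ≤ b * S := by
    calc ∑ j ∈ G, (Ej j) ^ (3 / 2 : ℝ) ≤ ∑ j ∈ G, b * Sj j :=
          sum_le_sum fun j hj => (mem_filter.1 hj).2
      _ ≤ ∑ j ∈ R, b * Sj j :=
          sum_le_sum_of_subset_of_nonneg (filter_subset _ _) fun j _ _ => mul_nonneg hb (hS0 j)
      _ = b * ∑ j ∈ R, Sj j := by rw [mul_sum]
      _ ≤ b * S := mul_le_mul_of_nonneg_left hS hb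
  have h5 : (#G : ℝ) ^ ((3 / 2 : ℝ) - 1) ≤ (M : ℝ) ^ (1 / 2 : ℝ) := by
    have : (#G : ℝ) ≤ M := by exact_mod_cast (card_le_card (filter_subset _ _)).trans hR
    have e : (3 / 2 : ℝ) - 1 = 1 / 2 := by norm_num
    rw [e]
    exact Real.rpow_le_rpow (by positivity) this (by norm_num)
  calc (E / 2) ^ (3 / 2 : ℝ) ≤ (∑ j ∈ G, Ej j) ^ (3 / 2 : ℝ) :=
        Real.rpow_le_rpow hE' h2 (by norm_num)
    _ ≤ (#G : ℝ) ^ ((3 / 2 : ℝ) - 1) * ∑ j ∈ G, (Ej j) ^ (3 / 2 : ℝ) := h3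
    _ ≤ (M : ℝ) ^ (1 / 2 : ℝ) * (b * S) := by
        gcongr
        exact sum_nonneg fun j _ => by positivity [hE0 j]

/-- windows cut according to the boundary edges -/
theorem step (C : ℝ) (hC : 1 ≤ C)
    (dey : ∀ (P : Finset Pt) (k : ℕ) (Q : Finset Pt) (I : Set ℝ), Good P → Q ⊆ P →
      I.OrdConnected → (#(EdIn P k Q I) : ℝ) ≤ C *
        ((#(Tch P k Q I) : ℝ) * (#(Tch P k Q I) + #(EdBd P k Q I))) ^ (2 / 3 : ℝ))
    (hRank : StRank) (P : Finset Pt) (k : ℕ) (Q : Finset Pt) (I : Set ℝ) (hP : Good P)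
    (hQ : Q ⊆ P) (hI : I.OrdConnected) (v : ℕ) (hv : 1 ≤ v) (M : ℕ)
    (hM : (#(EdBd P k Q I) : ℝ) / v + 1 ≤ M)
    (hMa : M * (43 * C * (v : ℝ) ^ (4 / 3 : ℝ)) ≤ (#(EdIn P k Q I) : ℝ) / 2) :
    ((#(EdIn P k Q I) : ℝ) / 2) ^ (3 / 2 : ℝ)
      ≤ (M : ℝ) ^ (1 / 2 : ℝ) * ((2 * C) ^ (3 / 2 : ℝ) * 64 * #(Sw Q I)) := by
  classical
  have hvpos : (0 : ℝ) < v := by exact_mod_cast hv
  have hM1 : 1 ≤ M := by
    have : (1 : ℝ) ≤ M := le_trans (by linarith [show 0 ≤ (#(EdBd P k Q I) : ℝ) / v by positivity]) hM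
    exact_mod_cast this
  set F : ℝ → ℝ := fun m => (cnt (EdBd P k Q I) (fun e => sl e.1 e.2) m : ℝ) / v with hF
  have hF0 : ∀ m, 0 ≤ F m := fun m => by simp only [hF]; positivity
  have hFm : Monotone F := by
    intro m m' h
    have h1 := cnt_mono (EdBd P k Q I) (fun e => sl e.1 e.2) h
    simp only [hF]
    gcongr
  have hFM : ∀ m, ⌊F m⌋₊ < M := by
    intro m
    rw [Nat.floor_lt (hF0 m)]
    have h1 := cnt_le (EdBd P k Q I) (fun e => sl e.1 e.2) m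
    have h2 : F m ≤ (#(EdBd P k Q I) : ℝ) / v := by
      simp only [hF]
      gcongr
    linarith
  set J : ℕ → Set ℝ := fun j => I ∩ {m | ⌊F m⌋₊ = j} with hJ
  have hJc : ∀ j, (J j).OrdConnected := fun j => hI.inter (ordConnected_level hFm j)
  have hV : ∀ j, #(EdBd P k Q (J j)) ≤ v := by
    intro j
    refine le_trans (card_le_card ?_) (card_level (EdBd P k Q I) (fun e => sl e.1 e.2)
      (fun e he e' he' h => Win266.eq_of_sl hP (mem_EdBd.1 he).1 (mem_EdBd.1 he').1 h)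
      F hF0 v hv ?_ j)
    · intro e he
      rw [mem_EdBd] at he
      simp only [mem_filter]
      exact ⟨mem_EdBd.2 ⟨he.1, he.2.1, he.2.2.1⟩, he.2.2.2⟩
    · intro m m' h
      simp only [hF]
      rw [sub_div]
  have hsumE : ∑ j ∈ range M, #(EdIn P k Q (J j)) = #(EdIn P k Q I) := by
    rw [card_eq_sum_card_fiberwise (f := fun e => ⌊F (sl e.1 e.2)⌋₊)
      (t := range M) fun e _ => mem_range.2 (hFM _)]
    refine sum_congr rfl fun j _ => ?_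
    congr 1
    ext e
    simp only [mem_filter, mem_EdIn, hJ, Set.mem_inter_iff, Set.mem_setOf_eq]
    tauto
  have hsumS : ∑ j ∈ range M, #(Sw (Tch P k Q (J j)) (J j)) ≤ #(Sw Q I) := by
    rw [card_eq_sum_card_fiberwise (f := fun e : Pt × Pt => ⌊F (sl e.1 e.2)⌋₊)
      (s := Sw Q I) (t := range M) fun e _ => mem_range.2 (hFM _)]
    refine sum_le_sum fun j _ => card_le_card fun e he => ?_
    simp only [Sw, mem_filter, mem_product, hJ, Set.mem_inter_iff, Set.mem_setOf_eq] at he ⊢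
    exact ⟨⟨⟨Tch_sub he.1.1, Tch_sub he.1.2⟩, he.2.1, he.2.2.1⟩, he.2.2.2⟩
  have key := sum_pow (M := M) hM1 (range M) (by rw [card_range])
    (fun j => (#(EdIn P k Q (J j)) : ℝ)) (fun j => (#(Sw (Tch P k Q (J j)) (J j)) : ℝ))
    (E := (#(EdIn P k Q I) : ℝ)) (S := (#(Sw Q I) : ℝ)) (a := 43 * C * (v : ℝ) ^ (4 / 3 : ℝ))
    (b := (2 * C) ^ (3 / 2 : ℝ) * 64) (fun j => by positivity) (fun j => by positivity)
    (by positivity) (by positivity) (by rw [← hsumE]; push_cast; exact le_rfl)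
    (by exact_mod_cast hsumS) (fun j _ => ?_) hMa
  · exact key
  · have hd := dey P k Q (J j) hP hQ (hJc j)
    by_cases hw : 8 * (#(EdBd P k Q (J j)) + 1) ≤ #(Tch P k Q (J j))
    · right
      have hr := hRank P k Q (J j) hP hQ (hJc j) hw
      have h1 : (#(EdIn P k Q (J j)) : ℝ) ≤ 2 * C * (#(Tch P k Q (J j)) : ℝ) ^ (4 / 3 : ℝ) :=
        hd.trans (arith_large hC (by omega))
      have h2 : (#(EdIn P k Q (J j)) : ℝ) ^ (3 / 2 : ℝ)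
          ≤ (2 * C) ^ (3 / 2 : ℝ) * (#(Tch P k Q (J j)) : ℝ) ^ 2 := by
        refine (rp_mono (by positivity) h1 (3 / 2) (by norm_num)).trans (le_of_eq ?_)
        rw [Real.mul_rpow (by positivity) (by positivity), ← Real.rpow_mul (by positivity),
          ← Real.rpow_natCast]
        norm_num
      have h3 : (#(Tch P k Q (J j)) : ℝ) ^ 2 ≤ 64 * #(Sw (Tch P k Q (J j)) (J j)) := by
        exact_mod_cast hr
      calc (#(EdIn P k Q (J j)) : ℝ) ^ (3 / 2 : ℝ)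
          ≤ (2 * C) ^ (3 / 2 : ℝ) * (#(Tch P k Q (J j)) : ℝ) ^ 2 := h2
        _ ≤ (2 * C) ^ (3 / 2 : ℝ) * (64 * #(Sw (Tch P k Q (J j)) (J j))) := by gcongr
        _ = _ := by ring
    · left
      push Not at hw
      have := arith_small (C := C) (a := v) (κ := 1) (w := #(Tch P k Q (J j)))
        (V := #(EdBd P k Q (J j))) (v0 := v) hC hvpos one_pos hv (by simp) (hV j) hw
      rw [one_pow, mul_one] at this
      exact hd.trans this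

theorem rp32 {x : ℝ} (hx : 0 ≤ x) : (x ^ (3 / 2 : ℝ)) * (x ^ (3 / 2 : ℝ)) = x ^ 3 := by
  rw [← Real.rpow_add_of_nonneg hx (by norm_num) (by norm_num), ← Real.rpow_natCast]
  norm_num

theorem rp43 {x : ℝ} (hx : 0 < x) : x ^ (4 / 3 : ℝ) = x * x ^ (1 / 3 : ℝ) := by
  have h := Real.rpow_add hx 1 (1 / 3)
  rw [Real.rpow_one] at h
  rw [← h]
  norm_num

theorem ar1 {D v0 y : ℝ} (hD : 0 < D) (hv : 0 < v0) (hy : 0 < y)
    (h : D * v0 * y < D * v0 ^ (4 / 3 : ℝ)) : y ^ 3 ≤ v0 := by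
  have h1 : y ≤ v0 ^ (1 / 3 : ℝ) := by
    rw [rp43 hv] at h
    have h4 : (D * v0) * y < (D * v0) * v0 ^ (1 / 3 : ℝ) := by linarith
    exact (lt_of_mul_lt_mul_left h4 (mul_pos hD hv).le).le
  calc y ^ 3 ≤ (v0 ^ (1 / 3 : ℝ)) ^ 3 := pow_le_pow_left₀ hy.le h1 3
    _ = v0 := by
      rw [← Real.rpow_natCast, ← Real.rpow_mul hv.le]
      norm_num

theorem ar2 {v y : ℝ} (hv : 0 ≤ v) (hy : 0 ≤ y) (h : v ≤ y ^ 3) : v ^ (1 / 3 : ℝ) ≤ y := by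
  calc v ^ (1 / 3 : ℝ) ≤ (y ^ 3) ^ (1 / 3 : ℝ) := rp_mono hv h _ (by norm_num)
    _ = y := by
      rw [← Real.rpow_natCast, ← Real.rpow_mul hy]
      norm_num

theorem ar3 {D v0 y M E : ℝ} (hD : 0 < D) (hv : 0 < v0) (hy : 0 < y) (hM0 : 0 ≤ M)
    (hM : M ≤ 6 * v0 / y ^ 3) (hE : E = D * v0 * y) :
    M ^ (1 / 2 : ℝ) * E ^ (3 / 2 : ℝ) ≤ 3 * D ^ (3 / 2 : ℝ) * v0 ^ 2 := by
  have h2 : M ^ (1 / 2 : ℝ) ≤ (6 * v0 / y ^ 3) ^ (1 / 2 : ℝ) := rp_mono hM0 hM _ (by norm_num)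
  have h3 : (6 * v0 / y ^ 3) ^ (1 / 2 : ℝ)
      = 6 ^ (1 / 2 : ℝ) * v0 ^ (1 / 2 : ℝ) / y ^ (3 / 2 : ℝ) := by
    rw [Real.div_rpow (by positivity) (by positivity), Real.mul_rpow (by norm_num)
      hv.le, ← Real.rpow_natCast y 3, ← Real.rpow_mul hy.le]
    norm_num
  have h4 : E ^ (3 / 2 : ℝ) = D ^ (3 / 2 : ℝ) * v0 ^ (3 / 2 : ℝ) * y ^ (3 / 2 : ℝ) := by
    rw [hE, Real.mul_rpow (by positivity) hy.le, Real.mul_rpow hD.le hv.le]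
  have h5 : (6 : ℝ) ^ (1 / 2 : ℝ) ≤ 3 := by
    calc (6 : ℝ) ^ (1 / 2 : ℝ) ≤ (9 : ℝ) ^ (1 / 2 : ℝ) :=
          rp_mono (by norm_num) (by norm_num) _ (by norm_num)
      _ = 3 := by
        rw [show (9 : ℝ) = 3 ^ (2 : ℝ) by norm_num, ← Real.rpow_mul (by norm_num)]
        norm_num
  have h6 : v0 ^ (1 / 2 : ℝ) * v0 ^ (3 / 2 : ℝ) = v0 ^ 2 := by
    rw [← Real.rpow_add hv, ← Real.rpow_natCast]
    norm_num
  have hy32 : 0 < y ^ (3 / 2 : ℝ) := Real.rpow_pos_of_pos hy _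
  calc M ^ (1 / 2 : ℝ) * E ^ (3 / 2 : ℝ)
      ≤ (6 ^ (1 / 2 : ℝ) * v0 ^ (1 / 2 : ℝ) / y ^ (3 / 2 : ℝ)) *
        (D ^ (3 / 2 : ℝ) * v0 ^ (3 / 2 : ℝ) * y ^ (3 / 2 : ℝ)) := by
        rw [← h3, ← h4]
        exact mul_le_mul_of_nonneg_right h2 (by rw [h4]; positivity)
    _ = 6 ^ (1 / 2 : ℝ) * D ^ (3 / 2 : ℝ) * (v0 ^ (1 / 2 : ℝ) * v0 ^ (3 / 2 : ℝ)) *
        (y ^ (3 / 2 : ℝ) / y ^ (3 / 2 : ℝ)) := by ring
    _ = 6 ^ (1 / 2 : ℝ) * D ^ (3 / 2 : ℝ) * v0 ^ 2 := by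
        rw [div_self hy32.ne', mul_one, h6]
    _ ≤ 3 * D ^ (3 / 2 : ℝ) * v0 ^ 2 := by gcongr

theorem half32 {E : ℝ} (hE : 0 ≤ E) : E ^ (3 / 2 : ℝ) ≤ (E / 2) ^ (3 / 2 : ℝ) * 4 := by
  have e2 : (2 : ℝ) ^ (3 / 2 : ℝ) ≤ 4 := by
    calc (2 : ℝ) ^ (3 / 2 : ℝ) ≤ (2 : ℝ) ^ (2 : ℝ) :=
          Real.rpow_le_rpow_of_exponent_le (by norm_num) (by norm_num)
      _ = 4 := by norm_num
  have : E ^ (3 / 2 : ℝ) = (E / 2) ^ (3 / 2 : ℝ) * 2 ^ (3 / 2 : ℝ) := by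
    rw [← Real.mul_rpow (by positivity) (by norm_num)]
    congr 1
    ring
  rw [this]
  exact mul_le_mul_of_nonneg_left e2 (by positivity)

theorem fin {E S Z B D v0 M : ℝ} (hE0 : 0 ≤ E) (hS0 : 0 ≤ S) (hB0 : 0 ≤ B) (hD : 0 < D)
    (h1 : (E / 2) ^ (3 / 2 : ℝ) ≤ M ^ (1 / 2 : ℝ) * (B * S))
    (hM4 : M ^ (1 / 2 : ℝ) * E ^ (3 / 2 : ℝ) ≤ 3 * D ^ (3 / 2 : ℝ) * v0 ^ 2)
    (hvv : v0 ^ 2 ≤ Z) :
    E ^ 3 ≤ (D ^ 2 + 12 * B * D ^ (3 / 2 : ℝ) + 8 * B) * S * Z := by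
  have hZ0 : 0 ≤ Z := le_trans (sq_nonneg _) hvv
  have hD32 : 0 ≤ D ^ (3 / 2 : ℝ) := by positivity
  have hE32 : 0 ≤ E ^ (3 / 2 : ℝ) := by positivity
  calc E ^ 3 = E ^ (3 / 2 : ℝ) * E ^ (3 / 2 : ℝ) := (rp32 hE0).symm
    _ ≤ ((E / 2) ^ (3 / 2 : ℝ) * 4) * E ^ (3 / 2 : ℝ) :=
        mul_le_mul_of_nonneg_right (half32 hE0) hE32
    _ ≤ ((M ^ (1 / 2 : ℝ) * (B * S)) * 4) * E ^ (3 / 2 : ℝ) :=
        mul_le_mul_of_nonneg_right (mul_le_mul_of_nonneg_right h1 (by norm_num)) hE32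
    _ = (4 * B * S) * (M ^ (1 / 2 : ℝ) * E ^ (3 / 2 : ℝ)) := by ring
    _ ≤ (4 * B * S) * (3 * D ^ (3 / 2 : ℝ) * v0 ^ 2) :=
        mul_le_mul_of_nonneg_left hM4 (by positivity)
    _ = 12 * B * D ^ (3 / 2 : ℝ) * S * v0 ^ 2 := by ring
    _ ≤ 12 * B * D ^ (3 / 2 : ℝ) * S * Z := mul_le_mul_of_nonneg_left hvv (by positivity)
    _ ≤ (D ^ 2 + 12 * B * D ^ (3 / 2 : ℝ) + 8 * B) * S * Z := by
        have h2 : 0 ≤ (D ^ 2 + 8 * B) * S * Z := by positivity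
        have h3 : (D ^ 2 + 12 * B * D ^ (3 / 2 : ℝ) + 8 * B) * S * Z
            = 12 * B * D ^ (3 / 2 : ℝ) * S * Z + (D ^ 2 + 8 * B) * S * Z := by ring
        rw [h3]
        linarith

theorem finA {E S Z B D : ℝ} (hE0 : 0 ≤ E) (hS0 : 0 ≤ S) (hB0 : 0 ≤ B) (hD : 0 < D)
    (h1 : (E / 2) ^ (3 / 2 : ℝ) ≤ ((2 : ℕ) : ℝ) ^ (1 / 2 : ℝ) * (B * S))
    (hZ : E ^ (3 / 2 : ℝ) ≤ Z) :
    E ^ 3 ≤ (D ^ 2 + 12 * B * D ^ (3 / 2 : ℝ) + 8 * B) * S * Z := by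
  have hE32 : 0 ≤ E ^ (3 / 2 : ℝ) := by positivity
  have hZ0 : 0 ≤ Z := hE32.trans hZ
  have e3 : ((2 : ℕ) : ℝ) ^ (1 / 2 : ℝ) ≤ 2 := by
    push_cast
    exact rp_le_self (by norm_num) (by norm_num)
  have h2 : E ^ (3 / 2 : ℝ) ≤ 8 * B * S := by
    calc E ^ (3 / 2 : ℝ) ≤ (E / 2) ^ (3 / 2 : ℝ) * 4 := half32 hE0
      _ ≤ (((2 : ℕ) : ℝ) ^ (1 / 2 : ℝ) * (B * S)) * 4 :=
          mul_le_mul_of_nonneg_right h1 (by norm_num)
      _ ≤ (2 * (B * S)) * 4 := by gcongr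
      _ = _ := by ring
  calc E ^ 3 = E ^ (3 / 2 : ℝ) * E ^ (3 / 2 : ℝ) := (rp32 hE0).symm
    _ ≤ (8 * B * S) * Z := mul_le_mul h2 hZ hE32 (by positivity)
    _ ≤ (D ^ 2 + 12 * B * D ^ (3 / 2 : ℝ) + 8 * B) * S * Z := by
        have h2 : 0 ≤ (D ^ 2 + 12 * B * D ^ (3 / 2 : ℝ)) * S * Z := by positivity
        have h3 : (D ^ 2 + 12 * B * D ^ (3 / 2 : ℝ) + 8 * B) * S * Z
            = 8 * B * S * Z + (D ^ 2 + 12 * B * D ^ (3 / 2 : ℝ)) * S * Z := by ring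
        rw [h3]
        linarith

theorem finC {E S Z B D v0 : ℝ} (hE0 : 0 ≤ E) (hS0 : 0 ≤ S) (hB0 : 0 ≤ B) (hD : 0 < D)
    (hES : E ≤ S) (h1 : E < D * v0) (hvv : v0 ^ 2 ≤ Z) :
    E ^ 3 ≤ (D ^ 2 + 12 * B * D ^ (3 / 2 : ℝ) + 8 * B) * S * Z := by
  have hZ0 : 0 ≤ Z := le_trans (sq_nonneg _) hvv
  calc E ^ 3 = E ^ 2 * E := by ring
    _ ≤ (D * v0) ^ 2 * S :=
        mul_le_mul (pow_le_pow_left₀ hE0 h1.le 2) hES hE0 (by positivity)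
    _ = D ^ 2 * S * v0 ^ 2 := by ring
    _ ≤ D ^ 2 * S * Z := mul_le_mul_of_nonneg_left hvv (by positivity)
    _ ≤ (D ^ 2 + 12 * B * D ^ (3 / 2 : ℝ) + 8 * B) * S * Z := by
        have h2 : 0 ≤ (12 * B * D ^ (3 / 2 : ℝ) + 8 * B) * S * Z := by positivity
        have h3 : (D ^ 2 + 12 * B * D ^ (3 / 2 : ℝ) + 8 * B) * S * Z
            = D ^ 2 * S * Z + (12 * B * D ^ (3 / 2 : ℝ) + 8 * B) * S * Z := by ring
        rw [h3]
        linarith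

/-- the choice of the windows in the case of many boundary edges -/
theorem arM {D v0 y : ℝ} {v : ℕ} (hvpos : 0 < (v : ℝ)) (hvge : y ^ 3 / 2 ≤ (v : ℝ))
    (hy : 0 < y) (hvv0 : (v : ℝ) ≤ v0) (hv0 : 0 < v0) :
    ((⌊2 * v0 / v⌋₊ + 1 : ℕ) : ℝ) ≤ 3 * v0 / v ∧ (3 * v0 / v : ℝ) ≤ 6 * v0 / y ^ 3 ∧
      2 * v0 / v ≤ ((⌊2 * v0 / v⌋₊ + 1 : ℕ) : ℝ) ∧ 1 ≤ v0 / v := by
  have h2 : 1 ≤ v0 / v := by rw [one_le_div hvpos]; exact hvv0
  refine ⟨?_, ?_, ?_, h2⟩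
  · push_cast
    have h1 := Nat.floor_le (show 0 ≤ 2 * v0 / v by positivity)
    calc (⌊2 * v0 / v⌋₊ : ℝ) + 1 ≤ 2 * v0 / v + v0 / v := by linarith
      _ = 3 * v0 / v := by ring
  · rw [div_le_div_iff₀ hvpos (by positivity)]
    have : 3 * v0 * y ^ 3 ≤ 3 * v0 * (2 * v) := by
      apply mul_le_mul_of_nonneg_left _ (by positivity)
      linarith
    linarith
  · push_cast
    exact (Nat.lt_floor_add_one _).le

/-- **SINEQ** -/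
theorem sineq (hDey : StDey) (hRank : StRank) : ∃ C : ℝ, 1 ≤ C ∧ ∀ (P : Finset Pt) (k : ℕ)
    (Q : Finset Pt) (I : Set ℝ), Good P → Q ⊆ P → I.OrdConnected →
    (#(EdIn P k Q I) : ℝ) ^ 3 ≤ C * #(Sw Q I) *
      ((#(EdIn P k Q I) : ℝ) ^ (3 / 2 : ℝ) + (#(EdBd P k Q I) : ℝ) ^ 2) := by
  classical
  obtain ⟨C₀, hC₀, dey₀⟩ := hDey
  set C : ℝ := max C₀ 1 with hCdef
  have hC : 1 ≤ C := le_max_right _ _
  have dey : ∀ (P : Finset Pt) (k : ℕ) (Q : Finset Pt) (I : Set ℝ), Good P → Q ⊆ P →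
      I.OrdConnected → (#(EdIn P k Q I) : ℝ) ≤ C *
        ((#(Tch P k Q I) : ℝ) * (#(Tch P k Q I) + #(EdBd P k Q I))) ^ (2 / 3 : ℝ) :=
    fun P k Q I h1 h2 h3 => (dey₀ P k Q I h1 h2 h3).trans
      (mul_le_mul_of_nonneg_right (le_max_left _ _) (by positivity))
  clear_value C
  -- constants
  set D : ℝ := 258 * C with hD
  have hD1 : 1 ≤ D := by rw [hD]; linarith
  have hDpos : 0 < D := by linarith
  have hCpos : 0 < C := by linarith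
  set B : ℝ := (2 * C) ^ (3 / 2 : ℝ) * 64 with hB
  have hB0 : 0 ≤ B := by rw [hB]; positivity
  refine ⟨D ^ 2 + 12 * B * D ^ (3 / 2 : ℝ) + 8 * B, by
    have : 1 ≤ D ^ 2 := one_le_pow₀ hD1
    have h0 : 0 ≤ B * D ^ (3 / 2 : ℝ) := by positivity
    nlinarith, fun P k Q I hP hQ hI => ?_⟩
  set E : ℝ := (#(EdIn P k Q I) : ℝ) with hE
  set S : ℝ := (#(Sw Q I) : ℝ) with hS
  have hES : E ≤ S := by
    rw [hE, hS]; exact_mod_cast card_EdIn_le_Sw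
  have hE0 : 0 ≤ E := by rw [hE]; positivity
  have hS0 : 0 ≤ S := hE0.trans hES
  set V : ℕ := #(EdBd P k Q I) with hV
  set v0 : ℕ := max V 1 with hv0
  have hv1 : 1 ≤ v0 := le_max_right _ _
  have hv1' : (1 : ℝ) ≤ v0 := by exact_mod_cast hv1
  have hvV : (V : ℝ) ≤ v0 := by exact_mod_cast le_max_left V 1
  rcases eq_or_lt_of_le hE0 with h0 | hEpos
  · rw [← h0]
    have : 0 ≤ (D ^ 2 + 12 * B * D ^ (3 / 2 : ℝ) + 8 * B) * S *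
        ((0 : ℝ) ^ (3 / 2 : ℝ) + (V : ℝ) ^ 2) := by positivity
    simpa using this
  have hE1 : 1 ≤ E := by
    rw [hE] at hEpos ⊢
    exact_mod_cast hEpos
  have hE32 : 1 ≤ E ^ (3 / 2 : ℝ) := Real.one_le_rpow hE1 (by norm_num)
  -- `v0 ^ 2 ≤ E ^ (3/2) + V ^ 2`
  have hvv : (v0 : ℝ) ^ 2 ≤ E ^ (3 / 2 : ℝ) + (V : ℝ) ^ 2 := by
    rcases Nat.eq_zero_or_pos V with h | h
    · have : v0 = 1 := by rw [hv0, h]; rfl
      rw [this, h]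
      simpa using hE32
    · have : v0 = V := by rw [hv0]; exact max_eq_left h
      rw [this]
      linarith
  have hE32' : E ^ (3 / 2 : ℝ) ≤ E ^ (3 / 2 : ℝ) + (V : ℝ) ^ 2 := by
    have : 0 ≤ (V : ℝ) ^ 2 := by positivity
    linarith
  set Z : ℝ := E ^ (3 / 2 : ℝ) + (V : ℝ) ^ 2 with hZ
  have hZ0 : 0 ≤ Z := by rw [hZ]; positivity
  by_cases hA : D * (v0 : ℝ) ^ (4 / 3 : ℝ) ≤ E
  · -- one or two windows
    have h1 := step C hC dey hRank P k Q I hP hQ hI v0 hv1 2 (by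
      have : (V : ℝ) / v0 ≤ 1 := by
        rw [div_le_one (by linarith)]; exact hvV
      push_cast
      linarith) (by
      rw [hD] at hA
      push_cast
      rw [← hE]
      have h0 : 0 ≤ C * (v0 : ℝ) ^ (4 / 3 : ℝ) := by positivity
      linarith)
    rw [← hE, ← hB, ← hS] at h1
    exact finA hE0 hS0 hB0 hDpos h1 hE32'
  · push Not at hA
    by_cases hx1 : E < D * v0
    · exact finC hE0 hS0 hB0 hDpos hES hx1 hvv
    · push Not at hx1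
      have hv0pos : (0 : ℝ) < v0 := by linarith
      obtain ⟨y, hy1, hEy⟩ : ∃ y : ℝ, 1 ≤ y ∧ E = D * v0 * y := by
        refine ⟨E / (D * v0), ?_, ?_⟩
        · rw [one_le_div (mul_pos hDpos hv0pos)]; exact hx1
        · rw [mul_comm, div_mul_cancel₀ _ (ne_of_gt (mul_pos hDpos hv0pos))]
      have hy0 : 0 < y := by linarith
      have hy3 : 1 ≤ y ^ 3 := one_le_pow₀ hy1
      have hv1'' : 1 ≤ ⌊y ^ 3⌋₊ := Nat.floor_pos.2 hy3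
      have hvle : (⌊y ^ 3⌋₊ : ℝ) ≤ y ^ 3 := Nat.floor_le (by positivity)
      have hvge : y ^ 3 / 2 ≤ (⌊y ^ 3⌋₊ : ℝ) := half_le_floor hy3
      generalize ⌊y ^ 3⌋₊ = v at hv1'' hvle hvge
      have hvpos : (0 : ℝ) < v := by exact_mod_cast hv1''
      have hyv : y ^ 3 ≤ (v0 : ℝ) := ar1 hDpos hv0pos hy0 (by rw [← hEy]; exact hA)
      obtain ⟨hM2, hM3, hM1, hv2⟩ := arM (D := D) hvpos hvge hy0 (hvle.trans hyv) hv0pos
      generalize ⌊2 * (v0 : ℝ) / v⌋₊ + 1 = M at hM1 hM2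
      have h1 := step C hC dey hRank P k Q I hP hQ hI v hv1'' M (by
        refine le_trans ?_ hM1
        have h1 : (V : ℝ) / v ≤ v0 / v := div_le_div_of_nonneg_right hvV hvpos.le
        calc (V : ℝ) / v + 1 ≤ v0 / v + v0 / v := by linarith
          _ = 2 * v0 / v := by ring) (by
        rw [← hE]
        have h3 : (v : ℝ) ^ (4 / 3 : ℝ) = v * (v : ℝ) ^ (1 / 3 : ℝ) := rp43 hvpos
        have h4 : (v : ℝ) ^ (1 / 3 : ℝ) ≤ y := ar2 hvpos.le hy0.le hvle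
        calc M * (43 * C * (v : ℝ) ^ (4 / 3 : ℝ))
            ≤ (3 * v0 / v) * (43 * C * (v * y)) := by
              rw [h3]
              exact mul_le_mul hM2 (by gcongr) (by positivity) (by positivity)
          _ = 129 * C * v0 * y * (v / v) := by ring
          _ = 129 * C * v0 * y := by rw [div_self hvpos.ne', mul_one]
          _ = E / 2 := by rw [hEy, hD]; ring)
      rw [← hE, ← hB, ← hS] at h1
      exact fin hE0 hS0 hB0 hDpos h1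
        (ar3 hDpos hv0pos hy0 (Nat.cast_nonneg M) (hM2.trans hM3) hEy) hvv

end Vale.Agent.P065.UB.H616
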