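import Vale.Agent.P065.UB.H616.Chart
import Vale.Agent.P065.H183.JView

/-!
# P065, upper bound: the field `star` of `Grid` from (STAR) (helper616)

Boxes given by two affine functionals of the chart are intersections of five half-planes; cells are
the `d`-squares of the two functionals.
-/

set_option autoImplicit false

namespace Vale.Agent.P065.UB.H616

open Finset Vale.Agent.P065.UB Vale.Agent.P065.UB.RankAux Vale.Agent.P065.H183

/-- affine functional of the chart -/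
noncomputable def chF (m0 : ℝ) (o : Pt) (α β γ : ℝ) (v : Pt) : ℝ :=
  α * chX m0 o v + β * chY m0 o v + γ

/-- the same functional, multiplied by `chV` -/
def chG (m0 : ℝ) (o : Pt) (α β γ : ℝ) (v : Pt) : ℝ :=
  α * chU o v + β + γ * chV m0 o v

theorem chF_eq {m0 : ℝ} {o : Pt} (α β γ : ℝ) {v : Pt} (hv : chV m0 o v ≠ 0) :
    chF m0 o α β γ v = chG m0 o α β γ v / chV m0 o v := by
  unfold chF chG chX chY
  field_simp

theorem abs_chV {σ m0 : ℝ} {o v : Pt} (hσ : σ = 1 ∨ σ = -1) (h : 0 < σ * chV m0 o v) :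
    |chV m0 o v| = σ * chV m0 o v := by
  rcases hσ with h1 | h1
  · rw [h1, one_mul] at h ⊢
    exact abs_of_pos h
  · rw [h1, neg_one_mul] at h ⊢
    exact abs_of_neg (by linarith)

theorem abs_chF_le {σ m0 : ℝ} {o v : Pt} (hσ : σ = 1 ∨ σ = -1) (h : 0 < σ * chV m0 o v)
    (α β γ t : ℝ) :
    |chF m0 o α β γ v| ≤ t ↔
      chG m0 o α β γ v ≤ t * (σ * chV m0 o v) ∧ -chG m0 o α β γ v ≤ t * (σ * chV m0 o v) := by
  have hv : chV m0 o v ≠ 0 := by
    rintro h0; rw [h0, mul_zero] at h; exact lt_irrefl _ h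
  have hpos : 0 < |chV m0 o v| := abs_pos.2 hv
  rw [chF_eq α β γ hv, abs_div, div_le_iff₀ hpos, abs_chV hσ h, abs_le]
  constructor
  · rintro ⟨h1, h2⟩; exact ⟨h2, by linarith⟩
  · rintro ⟨h1, h2⟩; exact ⟨by linarith, h1⟩

/-- a linear condition is a half-plane -/
theorem isHalf_G {m0 : ℝ} {o : Pt} (α β γ c σ t : ℝ) :
    IsHalf {v : Pt | c * chG m0 o α β γ v ≤ t * (σ * chV m0 o v)} := by
  have h := isHalf_le (c * α - (c * γ - t * σ) * m0) (c * γ - t * σ)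
    (c * α * o.1 - c * β + (c * γ - t * σ) * ht m0 o)
  have e : {z : Pt | (c * α - (c * γ - t * σ) * m0) * z.1 + (c * γ - t * σ) * z.2
      ≤ c * α * o.1 - c * β + (c * γ - t * σ) * ht m0 o}
      = {v : Pt | c * chG m0 o α β γ v ≤ t * (σ * chV m0 o v)} := by
    ext v
    simp only [Set.mem_setOf_eq]
    unfold chG chU chV
    have : ht m0 v = v.2 - m0 * v.1 := rfl
    rw [this]
    constructor <;> intro h <;> linarith
  rwa [e] at h

theorem isHalf_side {m0 : ℝ} {o : Pt} (σ : ℝ) : IsHalf {v : Pt | 0 < σ * chV m0 o v} := by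
  have h := isHalf_gt (-(σ * m0)) σ (σ * ht m0 o)
  have e : {z : Pt | σ * ht m0 o < -(σ * m0) * z.1 + σ * z.2} = {v : Pt | 0 < σ * chV m0 o v} := by
    ext v
    simp only [Set.mem_setOf_eq]
    unfold chV
    have : ht m0 v = v.2 - m0 * v.1 := rfl
    rw [this]
    constructor <;> intro h <;> linarith
  rwa [e] at h

/-- the five half-planes -/
def gHP (σ m0 : ℝ) (o : Pt) (α β γ t α' β' γ' r : ℝ) (i : ℕ) : Set Pt :=
  if i = 0 then {v | 0 < σ * chV m0 o v}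
  else if i = 1 then {v | 1 * chG m0 o α β γ v ≤ t * (σ * chV m0 o v)}
  else if i = 2 then {v | -1 * chG m0 o α β γ v ≤ t * (σ * chV m0 o v)}
  else if i = 3 then {v | 1 * chG m0 o α' β' γ' v ≤ r * (σ * chV m0 o v)}
  else {v | -1 * chG m0 o α' β' γ' v ≤ r * (σ * chV m0 o v)}

theorem gHP_isHalf (σ m0 : ℝ) (o : Pt) (α β γ t α' β' γ' r : ℝ) (i : ℕ) :
    IsHalf (gHP σ m0 o α β γ t α' β' γ' r i) := by
  unfold gHP
  split_ifs
  · exact isHalf_side σ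
  · exact isHalf_G α β γ 1 σ t
  · exact isHalf_G α β γ (-1) σ t
  · exact isHalf_G α' β' γ' 1 σ r
  · exact isHalf_G α' β' γ' (-1) σ r

theorem gbox_iff {σ m0 : ℝ} {o : Pt} (hσ : σ = 1 ∨ σ = -1) (α β γ t α' β' γ' r : ℝ) (v : Pt) :
    (0 < σ * chV m0 o v ∧ |chF m0 o α β γ v| ≤ t ∧ |chF m0 o α' β' γ' v| ≤ r) ↔
      ∀ i ∈ range 5, v ∈ gHP σ m0 o α β γ t α' β' γ' r i := by
  constructor
  · rintro ⟨h1, h2, h3⟩ i _
    rw [abs_chF_le hσ h1] at h2 h3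
    unfold gHP
    split_ifs
    · exact h1
    · simpa using h2.1
    · simpa using h2.2
    · simpa using h3.1
    · simpa using h3.2
  · intro h
    have h0 := h 0 (by simp)
    have h1 := h 1 (by simp)
    have h2 := h 2 (by simp)
    have h3 := h 3 (by simp)
    have h4 := h 4 (by simp)
    simp only [gHP, if_true, one_ne_zero, if_false, OfNat.ofNat_ne_zero, OfNat.ofNat_ne_one,
      Set.mem_setOf_eq, one_mul, neg_one_mul] at h0 h1 h2 h3 h4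
    norm_num at h3 h4
    exact ⟨h0, (abs_chF_le hσ h0 _ _ _ _).2 ⟨h1, h2⟩,
      (abs_chF_le hσ h0 _ _ _ _).2 ⟨h3, h4⟩⟩

theorem sum_cube_le {ι : Type*} (F : Finset ι) (f : ι → ℝ) (hf : ∀ i ∈ F, 0 ≤ f i) :
    ∑ i ∈ F, f i ^ 3 ≤ (∑ i ∈ F, f i) ^ 3 := by
  have hS : 0 ≤ ∑ i ∈ F, f i := sum_nonneg hf
  calc ∑ i ∈ F, f i ^ 3 ≤ ∑ i ∈ F, f i * (∑ i ∈ F, f i) ^ 2 := by
        refine sum_le_sum fun i hi => ?_
        have h1 : f i ≤ ∑ i ∈ F, f i := single_le_sum hf hi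
        have h2 : f i ^ 2 ≤ (∑ i ∈ F, f i) ^ 2 := pow_le_pow_left₀ (hf i hi) h1 2
        calc f i ^ 3 = f i * f i ^ 2 := by ring
          _ ≤ _ := mul_le_mul_of_nonneg_left h2 (hf i hi)
    _ = (∑ i ∈ F, f i) ^ 3 := by rw [← sum_mul]; ring

/-- rounding down to a multiple of `d` -/
noncomputable def rd (d x : ℝ) : ℝ := d * ⌊x / d⌋

theorem rd_le {d : ℝ} (hd : 0 < d) (x : ℝ) : |x - rd d x| ≤ d := by
  unfold rd
  have h1 : (⌊x / d⌋ : ℝ) ≤ x / d := Int.floor_le _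
  have h2 : x / d < ⌊x / d⌋ + 1 := Int.lt_floor_add_one _
  rw [le_div_iff₀ hd] at h1
  rw [div_lt_iff₀ hd] at h2
  rw [abs_le]
  constructor <;> nlinarith

/-- the cell of a point -/
noncomputable def cel (d : ℝ) (m0 : ℝ) (o : Pt) (α β γ α' β' γ' : ℝ) (v : Pt) : ℝ × ℝ :=
  (rd d (chF m0 o α β γ v), rd d (chF m0 o α' β' γ' v))

open Classical in
/-- the image of the points on one side of `l0` -/
noncomputable def PP (Q : Finset Pt) (σ m0 : ℝ) (o : Pt) (α β γ α' β' γ' : ℝ) :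
    Finset (ℝ × ℝ) :=
  ({q ∈ Q | 0 < σ * chV m0 o q}).image (fun v => (chF m0 o α β γ v, chF m0 o α' β' γ' v))

theorem chF_inj {m0 : ℝ} {o : Pt} {α β γ α' β' γ' : ℝ} (hdet : α * β' - α' * β ≠ 0) {v w : Pt}
    (hv : chV m0 o v ≠ 0) (hw : chV m0 o w ≠ 0)
    (h1 : chF m0 o α β γ v = chF m0 o α β γ w) (h2 : chF m0 o α' β' γ' v = chF m0 o α' β' γ' w) :
    v = w := by
  unfold chF at h1 h2
  refine chart_inj m0 o hv hw ?_
  have e1 : (α * β' - α' * β) * (chX m0 o v - chX m0 o w) = 0 := by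
    linear_combination β' * h1 - β * h2
  have e2 : (α * β' - α' * β) * (chY m0 o v - chY m0 o w) = 0 := by
    linear_combination α * h2 - α' * h1
  have e3 : chX m0 o v = chX m0 o w := sub_eq_zero.1 ((mul_eq_zero.1 e1).resolve_left hdet)
  have e4 : chY m0 o v = chY m0 o w := sub_eq_zero.1 ((mul_eq_zero.1 e2).resolve_left hdet)
  unfold chart
  rw [e3, e4]

open Classical in
/-- **the field `star`** -/
theorem starF {K lam : ℝ} {Q : Finset Pt} {W : Finset ℕ} {I : ℕ → Set ℝ} {R : ℕ → Finset Pt}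
    (h : JView K lam Q W I R) {σ m0 : ℝ} {o : Pt} (hσ : σ = 1 ∨ σ = -1)
    {α β γ α' β' γ' : ℝ} (hdet : α * β' - α' * β ≠ 0) {d m K₁ K₂ K₃ K₄ : ℝ} (hd : 0 < d)
    (hm : 0 < m) (hK₁ : 1 ≤ K₁) (hK₂ : 1 ≤ K₂) (hK₃ : 1 ≤ K₃)
    {A : Finset ℝ} {S : ℝ → Finset ℝ} {C : ℝ → ℝ → Finset (ℝ × ℝ)} {om : ℝ → ℝ → ℕ}
    (hom : ∀ a ∈ A, ∀ s ∈ S a, om a s ∈ W)
    (hC : ∀ a ∈ A, ∀ s ∈ S a, ∀ p ∈ C a s,
      m ≤ K₁ * #{q ∈ R (om a s) | 0 < σ * chV m0 o q ∧ cel d m0 o α β γ α' β' γ' q = p})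
    (hmul : ∀ w ∈ W, ∀ p : ℝ × ℝ,
      (∑ a ∈ A, #{s ∈ S a | om a s = w ∧ p ∈ C a s} : ℝ) ≤ K₂)
    (hQ : (#Q : ℝ) ≤ K₃ * lam ^ 2 * m) (hQ' : K₁ ^ 2 * K₃ ^ 2 * lam ^ 5 ≤ #Q)
    {al s0 h0 t r : ℝ} (hal : |al| ≤ K₄) (ht : d ≤ t) (hr : d ≤ r) :
    ∑ a ∈ A, ∑ s ∈ S a, (m * #{p ∈ C a s | |p.1 + al * p.2 - s0| ≤ t ∧ |p.2 - h0| ≤ r}) ^ 3
      ≤ (432 * K * (K₁ * K₂) ^ 3 * K₃) * lam * m *
        (#{p ∈ PP Q σ m0 o α β γ α' β' γ' |
          |p.1 + al * p.2 - s0| ≤ (K₄ + 2) * t ∧ |p.2 - h0| ≤ 2 * r} : ℝ) ^ 2 := by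
  have hlam : 1 ≤ lam := h.one
  have hlam0 : 0 < lam := by linarith
  have hK : 2 ≤ K := h.two
  have ht0 : 0 < t := by linarith
  have hr0 : 0 < r := by linarith
  have hK40 : 0 ≤ K₄ := (abs_nonneg al).trans hal
  -- the set of points in the enlarged box
  set Z : Finset Pt := {q ∈ Q | 0 < σ * chV m0 o q ∧
    |chF m0 o (α + al * α') (β + al * β') (γ + al * γ' - s0) q| ≤ (K₄ + 2) * t ∧
    |chF m0 o α' β' (γ' - h0) q| ≤ 2 * r} with hZ
  have hZmem : ∀ z, z ∈ Z ↔ z ∈ Q ∧ ∀ i ∈ range 5,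
      z ∈ gHP σ m0 o (α + al * α') (β + al * β') (γ + al * γ' - s0) ((K₄ + 2) * t)
        α' β' (γ' - h0) (2 * r) i := by
    intro z
    rw [hZ, mem_filter, gbox_iff hσ]
  have hstar := h.star (range 5) _ (fun i _ => gHP_isHalf σ m0 o (α + al * α') (β + al * β')
    (γ + al * γ' - s0) ((K₄ + 2) * t) α' β' (γ' - h0) (2 * r) i) Z hZmem
  rw [card_range] at hstar
  -- `#Z` and the image
  have hZP : #Z ≤ #{p ∈ PP Q σ m0 o α β γ α' β' γ' |
          |p.1 + al * p.2 - s0| ≤ (K₄ + 2) * t ∧ |p.2 - h0| ≤ 2 * r} := by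
    refine card_le_card_of_injOn (fun v => (chF m0 o α β γ v, chF m0 o α' β' γ' v)) ?_ ?_
    · intro q hq
      have hq' : q ∈ Z := hq
      rw [hZ, mem_filter] at hq'
      obtain ⟨h1, h2, h3, h4⟩ := hq'
      simp only [coe_filter, Set.mem_setOf_eq]
      refine ⟨?_, ?_, ?_⟩
      · unfold PP
        exact mem_image_of_mem _ (mem_filter.2 ⟨h1, h2⟩)
      · have : chF m0 o α β γ q + al * chF m0 o α' β' γ' q - s0
            = chF m0 o (α + al * α') (β + al * β') (γ + al * γ' - s0) q := by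
          unfold chF; ring
        rw [this]; exact h3
      · have : chF m0 o α' β' γ' q - h0 = chF m0 o α' β' (γ' - h0) q := by
          unfold chF; ring
        rw [this]; exact h4
    · intro v hv w hw hvw
      have hv' : v ∈ Z := hv
      have hw' : w ∈ Z := hw
      rw [hZ, mem_filter] at hv' hw'
      have hv0 : chV m0 o v ≠ 0 := by
        intro h0'; have := hv'.2.1; rw [h0', mul_zero] at this; exact lt_irrefl _ this
      have hw0 : chV m0 o w ≠ 0 := by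
        intro h0'; have := hw'.2.1; rw [h0', mul_zero] at this; exact lt_irrefl _ this
      exact chF_inj hdet hv0 hw0 (congrArg Prod.fst hvw) (congrArg Prod.snd hvw)
  -- points of `R w` in the cell `p`
  set nw : ℕ → ℝ × ℝ → ℕ := fun w p =>
    #{q ∈ R w | 0 < σ * chV m0 o q ∧ cel d m0 o α β γ α' β' γ' q = p} with hnw
  set Jb : ℝ × ℝ → Prop := fun p => |p.1 + al * p.2 - s0| ≤ t ∧ |p.2 - h0| ≤ r with hJb
  -- all cells
  set Y : Finset (ℝ × ℝ) := A.biUnion (fun a => (S a).biUnion (C a)) with hY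
  have hcellZ : ∀ w ∈ W, ∀ q ∈ R w, 0 < σ * chV m0 o q →
      Jb (cel d m0 o α β γ α' β' γ' q) → q ∈ R w ∩ Z := by
    intro w hw q hq hpos hJ
    rw [mem_inter]
    refine ⟨hq, ?_⟩
    rw [hZ, mem_filter]
    refine ⟨h.subR w hw hq, hpos, ?_, ?_⟩
    · have e1 := rd_le hd (chF m0 o α β γ q)
      have e2 := rd_le hd (chF m0 o α' β' γ' q)
      have e3 : |rd d (chF m0 o α β γ q) + al * rd d (chF m0 o α' β' γ' q) - s0| ≤ t := hJ.1
      have : chF m0 o (α + al * α') (β + al * β') (γ + al * γ' - s0) q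
          = (rd d (chF m0 o α β γ q) + al * rd d (chF m0 o α' β' γ' q) - s0)
            + (chF m0 o α β γ q - rd d (chF m0 o α β γ q))
            + al * (chF m0 o α' β' γ' q - rd d (chF m0 o α' β' γ' q)) := by
        unfold chF; ring
      rw [this]
      refine (abs_add_three _ _ _).trans ?_
      rw [abs_mul]
      have : |al| * |chF m0 o α' β' γ' q - rd d (chF m0 o α' β' γ' q)| ≤ K₄ * d :=
        mul_le_mul hal e2 (abs_nonneg _) hK40
      have : K₄ * d ≤ K₄ * t := mul_le_mul_of_nonneg_left ht hK40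
      linarith
    · have e2 := rd_le hd (chF m0 o α' β' γ' q)
      have e3 : |rd d (chF m0 o α' β' γ' q) - h0| ≤ r := hJ.2
      have : chF m0 o α' β' (γ' - h0) q
          = (rd d (chF m0 o α' β' γ' q) - h0)
            + (chF m0 o α' β' γ' q - rd d (chF m0 o α' β' γ' q)) := by
        unfold chF; ring
      rw [this]
      refine (abs_add_le _ _).trans ?_
      linarith
  have hnsum : ∀ w ∈ W, ∑ p ∈ Y with Jb p, nw w p ≤ #(R w ∩ Z) := by
    intro w hw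
    have : ∀ p ∈ ({p ∈ Y | Jb p} : Finset (ℝ × ℝ)), nw w p
        = #{q ∈ R w ∩ Z | (0 < σ * chV m0 o q ∧ cel d m0 o α β γ α' β' γ' q = p)} := by
      intro p hp
      rw [hnw]
      simp only
      congr 1
      ext q
      rw [mem_filter, mem_filter]
      constructor
      · rintro ⟨h1, h2, h3⟩
        exact ⟨hcellZ w hw q h1 h2 (h3 ▸ (mem_filter.1 hp).2), h2, h3⟩
      · rintro ⟨h1, h2, h3⟩
        exact ⟨(mem_inter.1 h1).1, h2, h3⟩
    rw [sum_congr rfl this]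
    rw [← card_biUnion]
    · refine card_le_card fun q hq => ?_
      rw [mem_biUnion] at hq
      obtain ⟨p, _, hq⟩ := hq
      exact (mem_filter.1 hq).1
    · intro p _ p' _ hne
      rw [Function.onFun, disjoint_left]
      intro q hq hq'
      exact hne ((mem_filter.1 hq).2.2.symm.trans (mem_filter.1 hq').2.2)
  -- the sums over the pairs `(a, s)` with window `w`
  set F : Finset (Σ _ : ℝ, ℝ) := A.sigma S with hF
  set c : (Σ _ : ℝ, ℝ) → ℝ := fun e => m * #{p ∈ C e.1 e.2 | Jb p} with hc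
  have hc0 : ∀ e, 0 ≤ c e := fun e => by rw [hc]; positivity
  have hLHS : ∑ a ∈ A, ∑ s ∈ S a,
      (m * #{p ∈ C a s | |p.1 + al * p.2 - s0| ≤ t ∧ |p.2 - h0| ≤ r}) ^ 3
      = ∑ e ∈ F, c e ^ 3 := by
    rw [hF, sum_sigma]
  have hFW : ∀ e ∈ F, om e.1 e.2 ∈ W := by
    intro e he
    rw [hF, mem_sigma] at he
    exact hom e.1 he.1 e.2 he.2
  have hTw : ∀ w ∈ W, ∑ e ∈ F with om e.1 e.2 = w, c e ≤ K₁ * K₂ * #(R w ∩ Z) := by
    intro w hw
    have e1 : ∀ e ∈ ({e ∈ F | om e.1 e.2 = w} : Finset (Σ _ : ℝ, ℝ)),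
        c e = ∑ p ∈ Y with Jb p, (if p ∈ C e.1 e.2 then m else 0) := by
      intro e he
      rw [mem_filter, hF, mem_sigma] at he
      rw [hc]
      simp only
      rw [← sum_filter, sum_const, nsmul_eq_mul, mul_comm]
      congr 3
      ext p
      rw [mem_filter, mem_filter, mem_filter]
      constructor
      · rintro ⟨h1, h2⟩
        refine ⟨⟨?_, h2⟩, h1⟩
        rw [hY, mem_biUnion]
        exact ⟨e.1, he.1.1, mem_biUnion.2 ⟨e.2, he.1.2, h1⟩⟩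
      · rintro ⟨⟨_, h2⟩, h1⟩
        exact ⟨h1, h2⟩
    rw [sum_congr rfl e1, sum_comm]
    have e2 : ∀ p ∈ ({p ∈ Y | Jb p} : Finset (ℝ × ℝ)),
        ∑ e ∈ F with om e.1 e.2 = w, (if p ∈ C e.1 e.2 then m else 0)
          ≤ K₁ * K₂ * nw w p := by
      intro p _
      rw [← sum_filter, sum_const, nsmul_eq_mul, filter_filter]
      by_cases hne : ({e ∈ F | om e.1 e.2 = w ∧ p ∈ C e.1 e.2} : Finset (Σ _ : ℝ, ℝ)).Nonempty
      · obtain ⟨e, he⟩ := hne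
        rw [mem_filter, hF, mem_sigma] at he
        have h1 : m ≤ K₁ * nw w p := by
          have := hC e.1 he.1.1 e.2 he.1.2 p he.2.2
          rw [he.2.1] at this
          exact this
        have h2 : (#{e ∈ F | om e.1 e.2 = w ∧ p ∈ C e.1 e.2} : ℝ) ≤ K₂ := by
          have e3 : #{e ∈ F | om e.1 e.2 = w ∧ p ∈ C e.1 e.2}
              = ∑ a ∈ A, #{s ∈ S a | om a s = w ∧ p ∈ C a s} := by
            have : ({e ∈ F | om e.1 e.2 = w ∧ p ∈ C e.1 e.2} : Finset (Σ _ : ℝ, ℝ))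
                = A.sigma (fun a => {s ∈ S a | om a s = w ∧ p ∈ C a s}) := by
              ext ⟨a, s⟩
              simp only [hF, mem_filter, mem_sigma]
              tauto
            rw [this, card_sigma]
          rw [e3]
          push_cast
          exact hmul w hw p
        calc (#{e ∈ F | om e.1 e.2 = w ∧ p ∈ C e.1 e.2} : ℝ) * m ≤ K₂ * m :=
              mul_le_mul_of_nonneg_right h2 hm.le
          _ ≤ K₂ * (K₁ * nw w p) := mul_le_mul_of_nonneg_left h1 (by linarith)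
          _ = K₁ * K₂ * nw w p := by ring
      · rw [not_nonempty_iff_eq_empty] at hne
        rw [hne, card_empty, Nat.cast_zero, zero_mul]
        positivity
    refine (sum_le_sum e2).trans ?_
    rw [← mul_sum]
    refine mul_le_mul_of_nonneg_left ?_ (by positivity)
    exact_mod_cast hnsum w hw
  have hsum : ∑ e ∈ F, c e ^ 3 ≤ (K₁ * K₂) ^ 3 * ∑ w ∈ W, (#(R w ∩ Z) : ℝ) ^ 3 := by
    rw [← sum_fiberwise_of_maps_to hFW, mul_sum]
    refine sum_le_sum fun w hw => ?_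
    refine (sum_cube_le _ _ fun e _ => hc0 e).trans ?_
    have h1 : 0 ≤ ∑ e ∈ F with om e.1 e.2 = w, c e := sum_nonneg fun e _ => hc0 e
    calc (∑ e ∈ F with om e.1 e.2 = w, c e) ^ 3 ≤ (K₁ * K₂ * #(R w ∩ Z)) ^ 3 :=
          pow_le_pow_left₀ h1 (hTw w hw) 3
      _ = (K₁ * K₂) ^ 3 * (#(R w ∩ Z) : ℝ) ^ 3 := by ring
  have hZP' : (#Z : ℝ) ^ 2 ≤ (#{p ∈ PP Q σ m0 o α β γ α' β' γ' |
          |p.1 + al * p.2 - s0| ≤ (K₄ + 2) * t ∧ |p.2 - h0| ≤ 2 * r} : ℝ) ^ 2 := by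
    have : (#Z : ℝ) ≤ #{p ∈ PP Q σ m0 o α β γ α' β' γ' |
          |p.1 + al * p.2 - s0| ≤ (K₄ + 2) * t ∧ |p.2 - h0| ≤ 2 * r} := by exact_mod_cast hZP
    exact pow_le_pow_left₀ (by positivity) this 2
  rw [hLHS]
  by_cases hne : ∃ e ∈ F, c e ≠ 0
  · obtain ⟨e, he, hce⟩ := hne
    have he' := he
    rw [hF, mem_sigma] at he
    -- a nonempty cell
    have hne2 : ({p ∈ C e.1 e.2 | Jb p} : Finset (ℝ × ℝ)).Nonempty := by
      rw [nonempty_iff_ne_empty]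
      intro h0
      apply hce
      rw [hc]
      simp only
      rw [h0, card_empty, Nat.cast_zero, mul_zero]
    obtain ⟨p, hp⟩ := hne2
    rw [mem_filter] at hp
    have hmZ : m ≤ K₁ * #Z := by
      have h1 := hC e.1 he.1 e.2 he.2 p hp.1
      refine h1.trans (mul_le_mul_of_nonneg_left ?_ (by linarith))
      have : ({q ∈ R (om e.1 e.2) | 0 < σ * chV m0 o q ∧
          cel d m0 o α β γ α' β' γ' q = p} : Finset Pt) ⊆ Z := by
        intro q hq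
        rw [mem_filter] at hq
        exact (mem_inter.1 (hcellZ _ (hFW e he') q hq.1 hq.2.1 (hq.2.2 ▸ hp.2))).2
      exact_mod_cast card_le_card this
    -- absorb the additive term
    have hQpos : 0 < (#Q : ℝ) := by
      have : 0 < K₁ ^ 2 * K₃ ^ 2 * lam ^ 5 := by positivity
      linarith
    have habs : lam * (#Q : ℝ) ≤ (#Z : ℝ) ^ 2 := by
      have h1 : (#Q : ℝ) ≤ K₁ * K₃ * lam ^ 2 * #Z := by
        calc (#Q : ℝ) ≤ K₃ * lam ^ 2 * m := hQ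
          _ ≤ K₃ * lam ^ 2 * (K₁ * #Z) := by gcongr
          _ = _ := by ring
      have h2 : (#Q : ℝ) ^ 2 ≤ (K₁ ^ 2 * K₃ ^ 2 * lam ^ 4) * (#Z : ℝ) ^ 2 := by
        calc (#Q : ℝ) ^ 2 ≤ (K₁ * K₃ * lam ^ 2 * #Z) ^ 2 := pow_le_pow_left₀ hQpos.le h1 2
          _ = _ := by ring
      have h3 : (K₁ ^ 2 * K₃ ^ 2 * lam ^ 4) * (lam * #Q) ≤ (#Q : ℝ) ^ 2 := by
        calc (K₁ ^ 2 * K₃ ^ 2 * lam ^ 4) * (lam * (#Q : ℝ))
            = (K₁ ^ 2 * K₃ ^ 2 * lam ^ 5) * (#Q : ℝ) := by ring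
          _ ≤ (#Q : ℝ) * (#Q : ℝ) := mul_le_mul_of_nonneg_right hQ' hQpos.le
          _ = (#Q : ℝ) ^ 2 := by ring
      have h4 : 0 < K₁ ^ 2 * K₃ ^ 2 * lam ^ 4 := by positivity
      exact le_of_mul_le_mul_left (h3.trans h2) h4
    have hS3 : ∑ w ∈ W, (#(R w ∩ Z) : ℝ) ^ 3 ≤ 432 * K * K₃ * lam * m * (#Z : ℝ) ^ 2 := by
      have h1 : lam * ∑ w ∈ W, (#(R w ∩ Z) : ℝ) ^ 3 ≤ lam * (432 * K * K₃ * lam * m * (#Z : ℝ) ^ 2) := by
        refine hstar.trans ?_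
        have h5 : lam * (#Q : ℝ) ^ 2 ≤ #Q * (#Z : ℝ) ^ 2 := by
          calc lam * (#Q : ℝ) ^ 2 = (#Q : ℝ) * (lam * (#Q : ℝ)) := by ring
            _ ≤ (#Q : ℝ) * (#Z : ℝ) ^ 2 := mul_le_mul_of_nonneg_left habs hQpos.le
        calc K * ((5 : ℕ) + 1 : ℝ) ^ 3 * (#Q * (#Z : ℝ) ^ 2 + lam * (#Q : ℝ) ^ 2)
            ≤ K * ((5 : ℕ) + 1 : ℝ) ^ 3 * (#Q * (#Z : ℝ) ^ 2 + #Q * (#Z : ℝ) ^ 2) := by gcongr
          _ = 432 * K * (#Z : ℝ) ^ 2 * #Q := by push_cast; ring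
          _ ≤ 432 * K * (#Z : ℝ) ^ 2 * (K₃ * lam ^ 2 * m) := by gcongr
          _ = _ := by ring
      exact le_of_mul_le_mul_left h1 hlam0
    calc ∑ e ∈ F, c e ^ 3 ≤ (K₁ * K₂) ^ 3 * ∑ w ∈ W, (#(R w ∩ Z) : ℝ) ^ 3 := hsum
      _ ≤ (K₁ * K₂) ^ 3 * (432 * K * K₃ * lam * m * (#Z : ℝ) ^ 2) := by gcongr
      _ = (432 * K * (K₁ * K₂) ^ 3 * K₃) * lam * m * (#Z : ℝ) ^ 2 := by ring
      _ ≤ _ := mul_le_mul_of_nonneg_left hZP' (by positivity)
  · push Not at hne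
    rw [sum_congr rfl (fun e he => by rw [hne e he])]
    simp only [ne_eq, OfNat.ofNat_ne_zero, not_false_eq_true, zero_pow, sum_const_zero]
    positivity

theorem ne_of_side {σ m0 : ℝ} {o v : Pt} (h : 0 < σ * chV m0 o v) : chV m0 o v ≠ 0 := by
  rintro h0; rw [h0, mul_zero] at h; exact lt_irrefl _ h

open Classical in
/-- counting points of the image in a box -/
theorem card_PP_box {σ m0 : ℝ} {o : Pt} {α β γ α' β' γ' : ℝ} (hdet : α * β' - α' * β ≠ 0)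
    (M : Finset Pt) (al s0 h0 t r : ℝ) :
    #{p ∈ PP M σ m0 o α β γ α' β' γ' | |p.1 + al * p.2 - s0| ≤ t ∧ |p.2 - h0| ≤ r}
      = #{q ∈ M | 0 < σ * chV m0 o q ∧
          |chF m0 o (α + al * α') (β + al * β') (γ + al * γ' - s0) q| ≤ t ∧
          |chF m0 o α' β' (γ' - h0) q| ≤ r} := by
  have e1 : ∀ q, chF m0 o α β γ q + al * chF m0 o α' β' γ' q - s0
      = chF m0 o (α + al * α') (β + al * β') (γ + al * γ' - s0) q := by
    intro q; unfold chF; ring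
  have e2 : ∀ q, chF m0 o α' β' γ' q - h0 = chF m0 o α' β' (γ' - h0) q := by
    intro q; unfold chF; ring
  symm
  refine card_bij (fun v _ => (chF m0 o α β γ v, chF m0 o α' β' γ' v)) ?_ ?_ ?_
  · intro q hq
    rw [mem_filter] at hq
    obtain ⟨h1, h2, h3, h4⟩ := hq
    rw [mem_filter]
    refine ⟨?_, ?_, ?_⟩
    · unfold PP
      exact mem_image_of_mem _ (mem_filter.2 ⟨h1, h2⟩)
    · show |chF m0 o α β γ q + al * chF m0 o α' β' γ' q - s0| ≤ t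
      rw [e1]; exact h3
    · show |chF m0 o α' β' γ' q - h0| ≤ r
      rw [e2]; exact h4
  · intro v hv w hw hvw
    rw [mem_filter] at hv hw
    exact chF_inj hdet (ne_of_side hv.2.1) (ne_of_side hw.2.1) (congrArg Prod.fst hvw)
      (congrArg Prod.snd hvw)
  · intro p hp
    rw [mem_filter] at hp
    obtain ⟨h1, h2, h3⟩ := hp
    unfold PP at h1
    rw [mem_image] at h1
    obtain ⟨q, hq, rfl⟩ := h1
    rw [mem_filter] at hq
    refine ⟨q, mem_filter.2 ⟨hq.1, hq.2, ?_, ?_⟩, rfl⟩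
    · rw [← e1]; exact h2
    · rw [← e2]; exact h3

open Classical in
/-- **(STAR) for boxes of two affine chart functionals**, everything in chart coordinates -/
theorem star_box {K lam : ℝ} {Q : Finset Pt} {W : Finset ℕ} {I : ℕ → Set ℝ} {R : ℕ → Finset Pt}
    (h : JView K lam Q W I R) {σ m0 : ℝ} {o : Pt} (hσ : σ = 1 ∨ σ = -1)
    {α β γ α' β' γ' : ℝ} (hdet : α * β' - α' * β ≠ 0) (al s0 h0 t r : ℝ) :
    lam * ∑ w ∈ W, (#{p ∈ PP (R w) σ m0 o α β γ α' β' γ' |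
        |p.1 + al * p.2 - s0| ≤ t ∧ |p.2 - h0| ≤ r} : ℝ) ^ 3
      ≤ 216 * K * (#Q * (#{p ∈ PP Q σ m0 o α β γ α' β' γ' |
        |p.1 + al * p.2 - s0| ≤ t ∧ |p.2 - h0| ≤ r} : ℝ) ^ 2 + lam * (#Q : ℝ) ^ 2) := by
  set Z : Finset Pt := {q ∈ Q | 0 < σ * chV m0 o q ∧
    |chF m0 o (α + al * α') (β + al * β') (γ + al * γ' - s0) q| ≤ t ∧
    |chF m0 o α' β' (γ' - h0) q| ≤ r} with hZ
  have hZmem : ∀ z, z ∈ Z ↔ z ∈ Q ∧ ∀ i ∈ range 5,
      z ∈ gHP σ m0 o (α + al * α') (β + al * β') (γ + al * γ' - s0) t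
        α' β' (γ' - h0) r i := by
    intro z
    rw [hZ, mem_filter, gbox_iff hσ]
  have hstar := h.star (range 5) _ (fun i _ => gHP_isHalf σ m0 o (α + al * α') (β + al * β')
    (γ + al * γ' - s0) t α' β' (γ' - h0) r i) Z hZmem
  rw [card_range] at hstar
  have e1 : ∀ w ∈ W, #{p ∈ PP (R w) σ m0 o α β γ α' β' γ' |
        |p.1 + al * p.2 - s0| ≤ t ∧ |p.2 - h0| ≤ r} = #(R w ∩ Z) := by
    intro w hw
    rw [card_PP_box hdet]
    congr 1
    ext q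
    rw [mem_filter, mem_inter, hZ, mem_filter]
    constructor
    · rintro ⟨h1, h2⟩; exact ⟨h1, h.subR w hw h1, h2⟩
    · rintro ⟨h1, _, h2⟩; exact ⟨h1, h2⟩
  rw [card_PP_box hdet, ← hZ]
  have e2 : ∑ w ∈ W, (#{p ∈ PP (R w) σ m0 o α β γ α' β' γ' |
        |p.1 + al * p.2 - s0| ≤ t ∧ |p.2 - h0| ≤ r} : ℝ) ^ 3 = ∑ w ∈ W, (#(R w ∩ Z) : ℝ) ^ 3 :=
    sum_congr rfl fun w hw => by rw [e1 w hw]
  rw [e2]
  refine hstar.trans (le_of_eq ?_)
  push_cast
  ring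

end Vale.Agent.P065.UB.H616
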