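import Vale.Agent.P065.UB.H616.Lov
import Vale.Agent.P065.UB.H616.SIneq

/-!
# P065, upper bound: the inequality (STAR) (helper616)

`star1`: one window. If every point of `R` has at least `D` edges of the window and the convex
polygon `B` (with `s` sides) contains `r` points of `R`, `6 s #T ≤ D r`, then
`(D r) ^ 3 ≤ C s ^ 2 #T ^ 2 #Sw B I`.
`star`: the sum over windows with disjoint intervals of slopes is at most `C s ^ 2 #B ^ 2`.
-/

set_option autoImplicit false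

namespace Vale.Agent.P065.UB.H616

open Finset Vale.Agent.P065.UB Vale.Agent.P065.UB.Win266

open Classical in
/-- the number of `k`-edges inside `Q` with slope in `I` and an end at `x` -/
noncomputable def dg (P : Finset Pt) (k : ℕ) (Q : Finset Pt) (I : Set ℝ) (x : Pt) : ℕ :=
  #{e ∈ EdIn P k Q I | e.1 = x ∨ e.2 = x}

theorem edIn_ne {P : Finset Pt} {k : ℕ} {Q : Finset Pt} {I : Set ℝ} {e : Pt × Pt}
    (he : e ∈ EdIn P k Q I) : e.1 ≠ e.2 := by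
  intro h
  have := edIn_lt he
  rw [h] at this
  exact lt_irrefl _ this

/-- degrees: inside edges are counted twice, edges leaving `B` once -/
theorem sum_dg_le {P : Finset Pt} {k : ℕ} {Q : Finset Pt} {I : Set ℝ} {B X : Finset Pt}
    (hBQ : B ⊆ Q) (hX : X ⊆ B) :
    ∑ x ∈ X, dg P k Q I x ≤ 2 * #(EdIn P k B I) + #(EdBd P k B I) := by
  classical
  -- incidences
  set F : Finset (Pt × Pt) := {e ∈ EdIn P k Q I | e.1 ∈ B} with hF
  set G : Finset (Pt × Pt) := {e ∈ EdIn P k Q I | e.2 ∈ B} with hG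
  have h1 : ∑ x ∈ X, dg P k Q I x ≤ #F + #G := by
    have e1 : ∑ x ∈ X, dg P k Q I x
        ≤ ∑ x ∈ B, (#{e ∈ F | e.1 = x} + #{e ∈ G | e.2 = x}) := by
      calc ∑ x ∈ X, dg P k Q I x ≤ ∑ x ∈ B, dg P k Q I x :=
            sum_le_sum_of_subset hX
        _ ≤ _ := by
            refine sum_le_sum fun x hx => ?_
            rw [← card_union_of_disjoint]
            · refine card_le_card fun e he => ?_
              simp only [mem_filter, mem_union, hF, hG] at he ⊢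
              rcases he.2 with h | h
              · left; exact ⟨⟨he.1, h ▸ hx⟩, h⟩
              · right; exact ⟨⟨he.1, h ▸ hx⟩, h⟩
            · rw [disjoint_left]
              intro e he he'
              simp only [mem_filter, hF, hG] at he he'
              exact edIn_ne he.1.1 (he.2.trans he'.2.symm)
    have e2 : ∑ x ∈ B, #{e ∈ F | e.1 = x} = #F :=
      (card_eq_sum_card_fiberwise (f := fun e : Pt × Pt => e.1) (fun e he => by
        simp only [hF, coe_filter, Set.mem_setOf_eq] at he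
        exact mem_coe.2 he.2)).symm
    have e3 : ∑ x ∈ B, #{e ∈ G | e.2 = x} = #G :=
      (card_eq_sum_card_fiberwise (f := fun e : Pt × Pt => e.2) (fun e he => by
        simp only [hG, coe_filter, Set.mem_setOf_eq] at he
        exact mem_coe.2 he.2)).symm
    rw [sum_add_distrib, e2, e3] at e1
    exact e1
  have h2 : F ∩ G ⊆ EdIn P k B I := by
    intro e he
    simp only [hF, hG, mem_inter, mem_filter, mem_EdIn] at he ⊢
    exact ⟨he.1.1.1, he.1.2, he.2.2, he.1.1.2.2.2⟩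
  have h3 : F ∪ G ⊆ EdIn P k B I ∪ EdBd P k B I := by
    intro e he
    have he' : e ∈ EdIn P k Q I ∧ (e.1 ∈ B ∨ e.2 ∈ B) := by
      simp only [hF, hG, mem_union, mem_filter] at he
      tauto
    obtain ⟨h4, h5⟩ := he'
    rw [mem_EdIn] at h4
    rw [mem_union, mem_EdIn, mem_EdBd]
    by_cases ha : e.1 ∈ B <;> by_cases hb : e.2 ∈ B <;> tauto
  have h4 : #F + #G = #(F ∪ G) + #(F ∩ G) := (card_union_add_card_inter F G).symm
  have h5 := card_le_card h2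
  have h6 := (card_le_card h3).trans (card_union_le _ _)
  omega

/-- the number of inside edges of a window with few boundary edges -/
theorem dey32 {C : ℝ} (hC : 1 ≤ C)
    {w V E : ℕ} (hV : V ≤ w)
    (hE : (E : ℝ) ≤ C * ((w : ℝ) * (w + V)) ^ (2 / 3 : ℝ)) :
    (E : ℝ) ^ (3 / 2 : ℝ) ≤ (2 * C) ^ (3 / 2 : ℝ) * (w : ℝ) ^ 2 := by
  have h1 := hE.trans (arith_large hC hV)
  refine (rp_mono (by positivity) h1 (3 / 2) (by norm_num)).trans (le_of_eq ?_)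
  rw [Real.mul_rpow (by positivity) (by positivity), ← Real.rpow_mul (by positivity),
    ← Real.rpow_natCast]
  norm_num

/-- **(STAR)**, one window -/
theorem star1 (hDey : StDey) (hRank : StRank) : ∃ C : ℝ, 1 ≤ C ∧ ∀ (P : Finset Pt) (k : ℕ)
    (Q : Finset Pt) (I : Set ℝ), Good P → Q ⊆ P → I.OrdConnected →
    8 * (#(EdBd P k Q I) + 1) ≤ #(Tch P k Q I) →
    ∀ {ι : Type} (S : Finset ι) (H : ι → Pt → Prop), (∀ i ∈ S, IsHP (H i)) → S.Nonempty →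
    ∀ B : Finset Pt, (∀ v, v ∈ B ↔ v ∈ Q ∧ ∀ i ∈ S, H i v) →
    ∀ (R : Finset Pt) (D : ℝ), 0 ≤ D → (∀ x ∈ R, D ≤ dg P k Q I x) →
    ∀ r : ℕ, (∃ X ⊆ R, X ⊆ B ∧ r ≤ #X) →
    8 * (#S : ℝ) * #(Tch P k Q I) ≤ D * r →
    (D * r) ^ 3 ≤ C * (#S : ℝ) ^ 2 * (#(Tch P k Q I) : ℝ) ^ 2 * #(Sw B I) := by
  classical
  obtain ⟨C₁, hC₁, hs⟩ := sineq hDey hRank
  obtain ⟨C₀, hC₀, dey₀⟩ := hDey
  set C : ℝ := max C₀ 1 with hCdef
  have hC : 1 ≤ C := le_max_right _ _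
  refine ⟨64 * C₁ * ((2 * C) ^ (3 / 2 : ℝ) + 16), ?_, ?_⟩
  · have : 0 ≤ (2 * C) ^ (3 / 2 : ℝ) := by positivity
    nlinarith
  intro P k Q I hP hQ hI hbd ι S H hH hSne B hB R D hD hR r hr hthr
  obtain ⟨X, hXR, hXB, hrX⟩ := hr
  have hBQ : B ⊆ Q := fun v hv => ((hB v).1 hv).1
  have hs1 : 1 ≤ #S := card_pos.2 hSne
  have hs1' : (1 : ℝ) ≤ #S := by exact_mod_cast hs1
  set w : ℕ := #(Tch P k Q I) with hw
  set V : ℕ := #(EdBd P k Q I) with hV
  -- boundary edges of `B`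
  have hVB : #(EdBd P k B I) ≤ 4 * #S * w := by
    have h1 := lov_box hP k hQ hI S H hH hB
    rw [← hw, ← hV] at h1
    have h2 : 2 * w + 2 * V ≤ 3 * w := by omega
    have h3 : #S * (2 * w + 2 * V) ≤ #S * (3 * w) := Nat.mul_le_mul_left _ h2
    have h4 : V ≤ #S * w := by
      have : w ≤ #S * w := Nat.le_mul_of_pos_left _ hs1
      omega
    calc #(EdBd P k B I) ≤ V + #S * (2 * w + 2 * V) := h1
      _ ≤ #S * w + #S * (3 * w) := Nat.add_le_add h4 h3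
      _ = 4 * #S * w := by ring
  have hVB' : (#(EdBd P k B I) : ℝ) ≤ 4 * #S * w := by exact_mod_cast hVB
  -- inside edges of `B`
  have hsum : D * r ≤ ∑ x ∈ X, (dg P k Q I x : ℝ) := by
    calc D * r ≤ D * #X := by
          have : (r : ℝ) ≤ #X := by exact_mod_cast hrX
          exact mul_le_mul_of_nonneg_left this hD
      _ = ∑ x ∈ X, D := by rw [sum_const, nsmul_eq_mul]; ring
      _ ≤ _ := sum_le_sum fun x hx => hR x (hXR hx)
  have hsum2 : ∑ x ∈ X, (dg P k Q I x : ℝ) ≤ 2 * #(EdIn P k B I) + #(EdBd P k B I) := by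
    exact_mod_cast sum_dg_le (P := P) (k := k) (I := I) hBQ hXB
  have hE : D * r ≤ 4 * (#(EdIn P k B I) : ℝ) := by
    linarith
  -- the swap inequality in `B`
  have h1 := hs P k B I hP (hBQ.trans hQ) hI
  -- upper bound of `E ^ (3/2)`
  have hEE : (#(EdIn P k B I) : ℝ) ≤ #(EdIn P k Q I) := by
    have : EdIn P k B I ⊆ EdIn P k Q I := by
      intro e he
      rw [mem_EdIn] at he ⊢
      exact ⟨he.1, hBQ he.2.1, hBQ he.2.2.1, he.2.2.2⟩
    exact_mod_cast card_le_card this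
  have hdey : (#(EdIn P k Q I) : ℝ) ^ (3 / 2 : ℝ) ≤ (2 * C) ^ (3 / 2 : ℝ) * (w : ℝ) ^ 2 := by
    refine dey32 hC (V := V) (by omega) ?_
    exact (dey₀ P k Q I hP hQ hI).trans (mul_le_mul_of_nonneg_right (le_max_left _ _)
      (by positivity))
  have h2 : (#(EdIn P k B I) : ℝ) ^ (3 / 2 : ℝ) ≤ (2 * C) ^ (3 / 2 : ℝ) * (w : ℝ) ^ 2 :=
    (rp_mono (by positivity) hEE _ (by norm_num)).trans hdey
  have h3 : (#(EdIn P k B I) : ℝ) ^ (3 / 2 : ℝ) + (#(EdBd P k B I) : ℝ) ^ 2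
      ≤ ((2 * C) ^ (3 / 2 : ℝ) + 16) * ((#S : ℝ) ^ 2 * (w : ℝ) ^ 2) := by
    have h4 : (#(EdBd P k B I) : ℝ) ^ 2 ≤ (4 * #S * w) ^ 2 :=
      pow_le_pow_left₀ (by positivity) hVB' 2
    have h5 : (w : ℝ) ^ 2 ≤ (#S : ℝ) ^ 2 * (w : ℝ) ^ 2 := by
      have : 1 ≤ (#S : ℝ) ^ 2 := one_le_pow₀ hs1'
      have hw2 : 0 ≤ (w : ℝ) ^ 2 := by positivity
      nlinarith
    have h6 : (2 * C) ^ (3 / 2 : ℝ) * (w : ℝ) ^ 2
        ≤ (2 * C) ^ (3 / 2 : ℝ) * ((#S : ℝ) ^ 2 * (w : ℝ) ^ 2) := by gcongr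
    calc _ ≤ (2 * C) ^ (3 / 2 : ℝ) * ((#S : ℝ) ^ 2 * (w : ℝ) ^ 2) + (4 * #S * w) ^ 2 := by
          linarith
      _ = _ := by ring
  have hE0 : 0 ≤ D * r := by positivity
  calc (D * r) ^ 3 ≤ (4 * (#(EdIn P k B I) : ℝ)) ^ 3 := pow_le_pow_left₀ hE0 hE 3
    _ = 64 * (#(EdIn P k B I) : ℝ) ^ 3 := by ring
    _ ≤ 64 * (C₁ * #(Sw B I) *
        ((#(EdIn P k B I) : ℝ) ^ (3 / 2 : ℝ) + (#(EdBd P k B I) : ℝ) ^ 2)) := by gcongr
    _ ≤ 64 * (C₁ * #(Sw B I) *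
        (((2 * C) ^ (3 / 2 : ℝ) + 16) * ((#S : ℝ) ^ 2 * (w : ℝ) ^ 2))) := by gcongr
    _ = _ := by ring

/-- disjoint intervals of slopes -/
theorem sum_Sw_le {ι : Type*} (W : Finset ι) (I : ι → Set ℝ)
    (hI : ∀ w ∈ W, ∀ w' ∈ W, w ≠ w' → Disjoint (I w) (I w')) (B : Finset Pt) :
    ∑ w ∈ W, #(Sw B (I w)) ≤ #B ^ 2 := by
  classical
  rw [sq, ← card_product, ← card_biUnion]
  · refine card_le_card fun e he => ?_
    rw [mem_biUnion] at he
    obtain ⟨w, _, he⟩ := he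
    simp only [Sw, mem_filter] at he
    exact he.1
  · intro w hw w' hw' hne
    rw [Function.onFun, disjoint_left]
    intro e he he'
    simp only [Sw, mem_filter] at he he'
    exact (Set.disjoint_left.1 (hI w hw w' hw' hne)) he.2.2 he'.2.2

/-- **(STAR)**: sum over the windows -/
theorem star (hDey : StDey) (hRank : StRank) : ∃ C : ℝ, 1 ≤ C ∧ ∀ (P : Finset Pt) (k : ℕ)
    (Q : Finset Pt), Good P → Q ⊆ P → ∀ {κ : Type} (W : Finset κ) (I : κ → Set ℝ),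
    (∀ w ∈ W, (I w).OrdConnected) →
    (∀ w ∈ W, ∀ w' ∈ W, w ≠ w' → Disjoint (I w) (I w')) →
    (∀ w ∈ W, 8 * (#(EdBd P k Q (I w)) + 1) ≤ #(Tch P k Q (I w))) →
    ∀ {ι : Type} (S : Finset ι) (H : ι → Pt → Prop), (∀ i ∈ S, IsHP (H i)) → S.Nonempty →
    ∀ B : Finset Pt, (∀ v, v ∈ B ↔ v ∈ Q ∧ ∀ i ∈ S, H i v) →
    ∀ (R : κ → Finset Pt) (D : κ → ℝ), (∀ w ∈ W, 0 ≤ D w) →
    (∀ w ∈ W, ∀ x ∈ R w, D w ≤ dg P k Q (I w) x) →
    ∀ r : κ → ℕ, (∀ w ∈ W, ∃ X ⊆ R w, X ⊆ B ∧ r w ≤ #X) →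
    (∀ w ∈ W, 8 * (#S : ℝ) * #(Tch P k Q (I w)) ≤ D w * r w) →
    ∑ w ∈ W, (D w * r w) ^ 3 / (#(Tch P k Q (I w)) : ℝ) ^ 2
      ≤ C * (#S : ℝ) ^ 2 * (#B : ℝ) ^ 2 := by
  classical
  obtain ⟨C, hC, h⟩ := star1 hDey hRank
  refine ⟨C, hC, fun P k Q hP hQ κ W I hIc hId hbd ι S H hH hSne B hB R D hD hR r hr hthr => ?_⟩
  calc ∑ w ∈ W, (D w * r w) ^ 3 / (#(Tch P k Q (I w)) : ℝ) ^ 2
      ≤ ∑ w ∈ W, C * (#S : ℝ) ^ 2 * #(Sw B (I w)) := by
        refine sum_le_sum fun w hw => ?_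
        have hT : 0 < (#(Tch P k Q (I w)) : ℝ) := by
          have := hbd w hw
          have : 0 < #(Tch P k Q (I w)) := by omega
          exact_mod_cast this
        rw [div_le_iff₀ (by positivity)]
        refine (h P k Q (I w) hP hQ (hIc w hw) (hbd w hw) S H hH hSne B hB (R w) (D w) (hD w hw)
          (hR w hw) (r w) (hr w hw) (hthr w hw)).trans (le_of_eq ?_)
        ring
    _ = C * (#S : ℝ) ^ 2 * ((∑ w ∈ W, #(Sw B (I w)) : ℕ) : ℝ) := by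
        rw [← mul_sum]; push_cast; rfl
    _ ≤ C * (#S : ℝ) ^ 2 * (#B : ℝ) ^ 2 := by
        have h1 : ((∑ w ∈ W, #(Sw B (I w)) : ℕ) : ℝ) ≤ (#B : ℝ) ^ 2 := by
          exact_mod_cast sum_Sw_le W I hId B
        have : 0 ≤ C * (#S : ℝ) ^ 2 := by positivity
        exact mul_le_mul_of_nonneg_left h1 this

end Vale.Agent.P065.UB.H616
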