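import Vale.Agent.P065.UB.Alt

/-!
# P065, upper bound: window Lovasz (helper616)

`lov`: the number of `k`-edges inside `Q` with slope in `I` which cross a line is at most
`2 * #Tch + 2 * #EdBd`.
-/

set_option autoImplicit false

namespace Vale.Agent.P065.UB.H616

open Finset Vale.Agent.P065.UB

/-! ### interlacing sets of reals -/

/-- if between two elements of `A` there is always an element of `B`, then `#A ≤ #B + 1`. -/
theorem card_interlace (A : Finset ℝ) : ∀ B : Finset ℝ,
    (∀ a ∈ A, ∀ a' ∈ A, a < a' → ∃ b ∈ B, a < b ∧ b < a') → #A ≤ #B + 1 := by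
  classical
  induction A using Finset.strongInduction with
  | _ A ih =>
    intro B h
    rcases A.eq_empty_or_nonempty with hA | hA
    · rw [hA]; simp
    · obtain ⟨x, hx, hmax⟩ := A.exists_max_image id hA
      simp only [id] at hmax
      rcases (A.erase x).eq_empty_or_nonempty with hE | hE
      · have : #(A.erase x) = 0 := by rw [hE]; rfl
        rw [card_erase_of_mem hx] at this
        omega
      · obtain ⟨y, hy, hymax⟩ := (A.erase x).exists_max_image id hE
        simp only [id] at hymax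
        have hyA := mem_of_mem_erase hy
        have hyx : y < x := lt_of_le_of_ne (hmax y hyA) (ne_of_mem_erase hy)
        obtain ⟨b, hb, hb1, hb2⟩ := h y hyA x hx hyx
        have h1 := ih (A.erase x) (erase_ssubset hx) (B.filter (fun b => b < y)) (by
          intro a ha a' ha' haa
          obtain ⟨c, hc, hc1, hc2⟩ := h a (mem_of_mem_erase ha) a' (mem_of_mem_erase ha') haa
          exact ⟨c, mem_filter.2 ⟨hc, hc2.trans_le (hymax a' ha')⟩, hc1, hc2⟩)
        have h2 : #(B.filter (fun b => b < y)) + 1 ≤ #B := by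
          have : b ∉ B.filter (fun b => b < y) := by
            simp only [mem_filter, not_and, not_lt]
            intro _; exact hb1.le
          rw [← card_insert_of_notMem this]
          exact card_le_card (insert_subset hb (filter_subset _ _))
        rw [card_erase_of_mem hx] at h1
        omega

/-! ### out-edges and in-edges at a point -/

open Classical in
/-- `k`-edges with slope in `J` and left end `v` -/
noncomputable def Out (P : Finset Pt) (k : ℕ) (J : Set ℝ) (v : Pt) : Finset (Pt × Pt) :=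
  {e ∈ Ed P k | e.1 = v ∧ sl e.1 e.2 ∈ J}

open Classical in
/-- `k`-edges with slope in `J` and right end `v` -/
noncomputable def Inn (P : Finset Pt) (k : ℕ) (J : Set ℝ) (v : Pt) : Finset (Pt × Pt) :=
  {e ∈ Ed P k | e.2 = v ∧ sl e.1 e.2 ∈ J}

theorem card_out_le {P : Finset Pt} (hP : Good P) (k : ℕ) {J : Set ℝ} (hJ : J.OrdConnected)
    (v : Pt) : #(Out P k J v) ≤ #(Inn P k J v) + 1 := by
  classical
  have h1 : #(Out P k J v) = #((Out P k J v).image (fun e => sl e.1 e.2)) := by
    rw [card_image_of_injOn]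
    rintro ⟨a, b⟩ ha ⟨a', b'⟩ ha' hh
    simp only [Out, coe_filter, Set.mem_setOf_eq] at ha ha' hh
    obtain ⟨ha1, rfl, ha2⟩ := ha
    obtain ⟨ha1', rfl, ha2'⟩ := ha'
    have e1 := mem_Ed.1 ha1
    have e2 := mem_Ed.1 ha1'
    simp only at e1 e2
    have := uniq hP e1.1 e1.2.1 e2.2.1 (ne_of_gt e1.2.2.1) (ne_of_gt e2.2.2.1) hh
    rw [this]
  have h2 : #((Inn P k J v).image (fun e => sl e.1 e.2)) ≤ #(Inn P k J v) := card_image_le
  rw [h1]
  refine (card_interlace _ ((Inn P k J v).image (fun e => sl e.1 e.2)) ?_).trans (by omega)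
  intro a ha a' ha' haa
  obtain ⟨⟨v1, u⟩, he, rfl⟩ := mem_image.1 ha
  obtain ⟨⟨v2, u'⟩, he', rfl⟩ := mem_image.1 ha'
  simp only [Out, mem_filter] at he he' haa
  obtain ⟨he1, rfl, he2⟩ := he
  obtain ⟨he1', rfl, he2'⟩ := he'
  obtain ⟨w, hw, hw1, hw2⟩ := out_out hP he1 he1' haa
  refine ⟨sl w v2, mem_image.2 ⟨(w, v2), ?_, rfl⟩, hw1, hw2⟩
  simp only [Inn, mem_filter, true_and]
  exact ⟨hw, hJ.out he2 he2' ⟨hw1.le, hw2.le⟩⟩

/-! ### the flux -/

open Classical in
/-- the `k`-edges inside `Q` with slope in `J`, left end in `H`, right end not in `H` -/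
noncomputable def CrL (P : Finset Pt) (k : ℕ) (Q : Finset Pt) (J : Set ℝ) (H : Pt → Prop) :
    Finset (Pt × Pt) :=
  {e ∈ EdIn P k Q J | H e.1 ∧ ¬ H e.2}

open Classical in
/-- the `k`-edges inside `Q` with slope in `J` and exactly one end in `H` -/
noncomputable def Cr (P : Finset Pt) (k : ℕ) (Q : Finset Pt) (J : Set ℝ) (H : Pt → Prop) :
    Finset (Pt × Pt) :=
  {e ∈ EdIn P k Q J | ¬ (H e.1 ↔ H e.2)}

/-- flux, one direction -/
theorem flux {P : Finset Pt} (hP : Good P) (k : ℕ) {Q : Finset Pt} (hQ : Q ⊆ P) {J : Set ℝ}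
    (hJ : J.OrdConnected) (H : Pt → Prop)
    (hmono : ∀ e ∈ EdIn P k Q J, H e.2 → H e.1) :
    #(Cr P k Q J H) ≤ #(Tch P k Q J) + 2 * #(EdBd P k Q J) := by
  classical
  -- the points of `Q ∩ H`
  set X : Finset Pt := {v ∈ Q | H v} with hX
  set A : Finset (Pt × Pt) := {e ∈ Ed P k | e.1 ∈ X ∧ sl e.1 e.2 ∈ J} with hA
  set B : Finset (Pt × Pt) := {e ∈ Ed P k | e.2 ∈ X ∧ sl e.1 e.2 ∈ J} with hB
  -- touched points
  set T : Finset Pt := {v ∈ X | (Out P k J v).Nonempty} with hT
  have h1 : #A = ∑ v ∈ T, #(Out P k J v) := by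
    rw [card_eq_sum_card_fiberwise (f := fun e : Pt × Pt => e.1) (t := T)]
    · refine sum_congr rfl fun v hv => ?_
      congr 1
      ext e
      simp only [hA, Out, mem_filter]
      have hv' : v ∈ X := (mem_filter.1 hv).1
      constructor
      · rintro ⟨⟨h1, h2, h3⟩, h4⟩; exact ⟨h1, h4, h3⟩
      · rintro ⟨h1, h2, h3⟩; exact ⟨⟨h1, h2 ▸ hv', h3⟩, h2⟩
    · intro e he
      simp only [hA, coe_filter, Set.mem_setOf_eq] at he
      simp only [hT, coe_filter, Set.mem_setOf_eq]
      exact ⟨he.2.1, ⟨e, by simp only [Out, mem_filter, true_and]; exact ⟨he.1, he.2.2⟩⟩⟩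
  have h2 : ∑ v ∈ T, #(Inn P k J v) ≤ #B := by
    rw [card_eq_sum_card_fiberwise (f := fun e : Pt × Pt => e.2) (s := B) (t := X)]
    · calc ∑ v ∈ T, #(Inn P k J v) ≤ ∑ v ∈ X, #(Inn P k J v) :=
            sum_le_sum_of_subset (filter_subset _ _)
        _ ≤ _ := by
            refine sum_le_sum fun v hv => card_le_card fun e he => ?_
            simp only [hB, Inn, mem_filter] at he ⊢
            exact ⟨⟨he.1, he.2.1 ▸ hv, he.2.2⟩, he.2.1⟩
    · intro e he
      simp only [hB, coe_filter, Set.mem_setOf_eq] at he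
      exact mem_coe.2 he.2.1
  have h3 : #A ≤ #B + #T := by
    calc #A = ∑ v ∈ T, #(Out P k J v) := h1
      _ ≤ ∑ v ∈ T, (#(Inn P k J v) + 1) := sum_le_sum fun v _ => card_out_le hP k hJ v
      _ = ∑ v ∈ T, #(Inn P k J v) + #T := by rw [sum_add_distrib]; simp
      _ ≤ _ := by omega
  -- `A \ B` contains the crossing edges, `B \ A` is contained in the boundary edges
  have h4 : #(A \ B) ≤ #(B \ A) + #T := by
    have e1 := card_sdiff_add_card_inter A B
    have e2 := card_sdiff_add_card_inter B A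
    rw [inter_comm B A] at e2
    omega
  have h5 : Cr P k Q J H ⊆ A \ B := by
    intro e he
    simp only [Cr, mem_filter] at he
    obtain ⟨he, hc⟩ := he
    have hm := hmono e he
    simp only [EdIn, mem_filter] at he
    have hH1 : H e.1 := by
      by_contra hh
      exact hc ⟨fun h => absurd h hh, fun h => absurd (hm h) hh⟩
    have hH2 : ¬ H e.2 := fun hh => hc ⟨fun _ => hh, fun _ => hH1⟩
    simp only [hA, hB, hX, mem_sdiff, mem_filter]
    exact ⟨⟨he.1, ⟨he.2.1, hH1⟩, he.2.2.2⟩, fun hh => hH2 hh.2.1.2⟩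
  have h6 : B \ A ⊆ EdBd P k Q J := by
    intro e he
    simp only [hA, hB, hX, mem_sdiff, mem_filter] at he
    obtain ⟨⟨he1, ⟨he2, he3⟩, he4⟩, he5⟩ := he
    simp only [EdBd, mem_filter]
    refine ⟨he1, Or.inr ⟨?_, he2⟩, he4⟩
    intro hh
    have hin : e ∈ EdIn P k Q J := by
      simp only [EdIn, mem_filter]; exact ⟨he1, hh, he2, he4⟩
    exact he5 ⟨he1, ⟨hh, hmono e hin he3⟩, he4⟩
  have h7 : #T ≤ #(Tch P k Q J) + #(EdBd P k Q J) := by
    have : T ⊆ Tch P k Q J ∪ (EdBd P k Q J).image (fun e => e.1) := by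
      intro v hv
      simp only [hT, hX, mem_filter] at hv
      obtain ⟨⟨hv1, hv2⟩, ⟨e, he⟩⟩ := hv
      simp only [Out, mem_filter] at he
      rw [mem_union]
      by_cases hq : e.2 ∈ Q
      · left
        simp only [Tch, mem_filter]
        refine ⟨hv1, e, ?_, Or.inl he.2.1⟩
        simp only [EdIn, mem_filter]
        exact ⟨he.1, he.2.1 ▸ hv1, hq, he.2.2⟩
      · right
        rw [mem_image]
        refine ⟨e, ?_, he.2.1⟩
        simp only [EdBd, mem_filter]
        exact ⟨he.1, Or.inl ⟨he.2.1 ▸ hv1, hq⟩, he.2.2⟩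
    exact (card_le_card this).trans ((card_union_le _ _).trans
      (Nat.add_le_add_left card_image_le _))
  have h8 := card_le_card h5
  have h9 := card_le_card h6
  omega

/-- flux, the other direction -/
theorem flux' {P : Finset Pt} (hP : Good P) (k : ℕ) {Q : Finset Pt} (hQ : Q ⊆ P) {J : Set ℝ}
    (hJ : J.OrdConnected) (H : Pt → Prop)
    (hmono : ∀ e ∈ EdIn P k Q J, H e.1 → H e.2) :
    #(Cr P k Q J H) ≤ #(Tch P k Q J) + 2 * #(EdBd P k Q J) := by
  classical
  have h1 : Cr P k Q J H = Cr P k Q J (fun v => ¬ H v) := by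
    ext e
    simp only [Cr, mem_filter]
    tauto
  rw [h1]
  exact flux hP k hQ hJ _ fun e he h2 h1 => h2 (hmono e he h1)

/-! ### lines -/

theorem Tch_mono {P : Finset Pt} {k : ℕ} {Q : Finset Pt} {J I : Set ℝ} (h : J ⊆ I) :
    Tch P k Q J ⊆ Tch P k Q I := by
  classical
  intro v hv
  simp only [Tch, EdIn, mem_filter] at hv ⊢
  obtain ⟨h1, e, he, h2⟩ := hv
  exact ⟨h1, e, ⟨he.1, he.2.1, he.2.2.1, h he.2.2.2⟩, h2⟩

/-- for the slopes on one side of `m` and the slopes on the other side -/
theorem lov_aux {P : Finset Pt} (hP : Good P) (k : ℕ) {Q : Finset Pt} (hQ : Q ⊆ P) {I : Set ℝ}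
    (hI : I.OrdConnected) (m : ℝ) (H : Pt → Prop)
    (h1 : ∀ e ∈ EdIn P k Q I, m < sl e.1 e.2 → H e.2 → H e.1)
    (h2 : ∀ e ∈ EdIn P k Q I, sl e.1 e.2 < m → H e.1 → H e.2)
    (h3 : ∀ e ∈ EdIn P k Q I, sl e.1 e.2 = m → (H e.1 ↔ H e.2)) :
    #(Cr P k Q I H) ≤ 2 * #(Tch P k Q I) + 2 * #(EdBd P k Q I) := by
  classical
  have hJ1 : (I ∩ Set.Ioi m).OrdConnected := hI.inter Set.ordConnected_Ioi
  have hJ2 : (I ∩ Set.Iio m).OrdConnected := hI.inter Set.ordConnected_Iio
  have e1 := flux hP k hQ hJ1 H (fun e he => by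
    have he' : e ∈ EdIn P k Q I ∧ m < sl e.1 e.2 := by
      simp only [EdIn, mem_filter, Set.mem_inter_iff, Set.mem_Ioi] at he ⊢
      tauto
    exact h1 e he'.1 he'.2)
  have e2 := flux' hP k hQ hJ2 H (fun e he => by
    have he' : e ∈ EdIn P k Q I ∧ sl e.1 e.2 < m := by
      simp only [EdIn, mem_filter, Set.mem_inter_iff, Set.mem_Iio] at he ⊢
      tauto
    exact h2 e he'.1 he'.2)
  have e3 : Cr P k Q I H ⊆ Cr P k Q (I ∩ Set.Ioi m) H ∪ Cr P k Q (I ∩ Set.Iio m) H := by
    intro e he
    have he' := he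
    simp only [Cr, mem_filter] at he'
    rw [mem_union]
    rcases lt_trichotomy m (sl e.1 e.2) with h | h | h
    · left
      simp only [Cr, EdIn, mem_filter, Set.mem_inter_iff, Set.mem_Ioi] at he ⊢
      tauto
    · exact absurd (h3 e he'.1 h.symm) he'.2
    · right
      simp only [Cr, EdIn, mem_filter, Set.mem_inter_iff, Set.mem_Iio] at he ⊢
      tauto
  have e4 : #(EdBd P k Q (I ∩ Set.Ioi m)) + #(EdBd P k Q (I ∩ Set.Iio m))
      ≤ #(EdBd P k Q I) := by
    rw [← card_union_of_disjoint]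
    · refine card_le_card fun e he => ?_
      simp only [EdBd, mem_union, mem_filter, Set.mem_inter_iff] at he ⊢
      tauto
    · rw [disjoint_left]
      intro e he he'
      simp only [EdBd, mem_filter, Set.mem_inter_iff, Set.mem_Ioi, Set.mem_Iio] at he he'
      linarith [he.2.2.2, he'.2.2.2]
  have e5 := card_le_card (Tch_mono (P := P) (k := k) (Q := Q)
    (Set.inter_subset_left (s := I) (t := Set.Ioi m)))
  have e6 := card_le_card (Tch_mono (P := P) (k := k) (Q := Q)
    (Set.inter_subset_left (s := I) (t := Set.Iio m)))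
  have e7 := (card_le_card e3).trans (card_union_le _ _)
  omega

/-- half-planes (open or closed, any side) -/
inductive IsHP : (Pt → Prop) → Prop
  | below (m b : ℝ) : IsHP (fun v => ht m v < b)
  | belowc (m b : ℝ) : IsHP (fun v => ht m v ≤ b)
  | above (m b : ℝ) : IsHP (fun v => b < ht m v)
  | abovec (m b : ℝ) : IsHP (fun v => b ≤ ht m v)
  | left (c : ℝ) : IsHP (fun v => v.1 < c)
  | leftc (c : ℝ) : IsHP (fun v => v.1 ≤ c)
  | right (c : ℝ) : IsHP (fun v => c < v.1)
  | rightc (c : ℝ) : IsHP (fun v => c ≤ v.1)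
  | all : IsHP (fun _ => True)
  | none : IsHP (fun _ => False)

theorem Cr_not {P : Finset Pt} {k : ℕ} {Q : Finset Pt} {I : Set ℝ} {H H' : Pt → Prop}
    (h : ∀ v, H v ↔ ¬ H' v) : Cr P k Q I H = Cr P k Q I H' := by
  classical
  ext e
  simp only [Cr, mem_filter]
  rw [h, h]
  tauto

theorem ht_lt_of_sl {p q : Pt} (h : p.1 < q.1) {m : ℝ} (hm : m < sl p q) : ht m p < ht m q := by
  have h1 := ht_sub (ne_of_lt h) m
  have : 0 < (sl p q - m) * (q.1 - p.1) := mul_pos (by linarith) (by linarith)
  linarith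

theorem ht_gt_of_sl {p q : Pt} (h : p.1 < q.1) {m : ℝ} (hm : sl p q < m) : ht m q < ht m p := by
  have h1 := ht_sub (ne_of_lt h) m
  have : (sl p q - m) * (q.1 - p.1) < 0 := mul_neg_of_neg_of_pos (by linarith) (by linarith)
  linarith

theorem edIn_lt {P : Finset Pt} {k : ℕ} {Q : Finset Pt} {I : Set ℝ} {e : Pt × Pt}
    (he : e ∈ EdIn P k Q I) : e.1.1 < e.2.1 := by
  classical
  simp only [EdIn, mem_filter] at he
  exact (mem_Ed.1 he.1).2.2.1

/-- **window Lovasz**: the number of `k`-edges inside `Q` with slope in `I` with exactly one end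
in a half-plane `H` is at most `2 * #Tch + 2 * #EdBd`. -/
theorem lov {P : Finset Pt} (hP : Good P) (k : ℕ) {Q : Finset Pt} (hQ : Q ⊆ P) {I : Set ℝ}
    (hI : I.OrdConnected) {H : Pt → Prop} (hH : IsHP H) :
    #(Cr P k Q I H) ≤ 2 * #(Tch P k Q I) + 2 * #(EdBd P k Q I) := by
  have below : ∀ m b : ℝ, #(Cr P k Q I (fun v => ht m v < b))
      ≤ 2 * #(Tch P k Q I) + 2 * #(EdBd P k Q I) := by
    intro m b
    refine lov_aux hP k hQ hI m _ (fun e he hm h => ?_) (fun e he hm h => ?_) (fun e he hm => ?_)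
    · exact (ht_lt_of_sl (edIn_lt he) hm).trans h
    · exact (ht_gt_of_sl (edIn_lt he) hm).trans h
    · have := (ht_eq_iff (ne_of_lt (edIn_lt he)) m).2 hm
      simp only [this]
  have belowc : ∀ m b : ℝ, #(Cr P k Q I (fun v => ht m v ≤ b))
      ≤ 2 * #(Tch P k Q I) + 2 * #(EdBd P k Q I) := by
    intro m b
    refine lov_aux hP k hQ hI m _ (fun e he hm h => ?_) (fun e he hm h => ?_) (fun e he hm => ?_)
    · exact (ht_lt_of_sl (edIn_lt he) hm).le.trans h
    · exact (ht_gt_of_sl (edIn_lt he) hm).le.trans h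
    · have := (ht_eq_iff (ne_of_lt (edIn_lt he)) m).2 hm
      simp only [this]
  have left : ∀ c : ℝ, #(Cr P k Q I (fun v => v.1 < c))
      ≤ 2 * #(Tch P k Q I) + 2 * #(EdBd P k Q I) := by
    intro c
    refine (flux hP k hQ hI _ (fun e he h => (edIn_lt he).trans h)).trans ?_
    omega
  have leftc : ∀ c : ℝ, #(Cr P k Q I (fun v => v.1 ≤ c))
      ≤ 2 * #(Tch P k Q I) + 2 * #(EdBd P k Q I) := by
    intro c
    refine (flux hP k hQ hI _ (fun e he h => (edIn_lt he).le.trans h)).trans ?_
    omega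
  cases hH with
  | below m b => exact below m b
  | belowc m b => exact belowc m b
  | above m b =>
    rw [Cr_not (H' := fun v => ht m v ≤ b) (fun v => not_le.symm)]
    exact belowc m b
  | abovec m b =>
    rw [Cr_not (H' := fun v => ht m v < b) (fun v => not_lt.symm)]
    exact below m b
  | left c => exact left c
  | leftc c => exact leftc c
  | right c =>
    rw [Cr_not (H' := fun v => v.1 ≤ c) (fun v => not_le.symm)]
    exact leftc c
  | rightc c =>
    rw [Cr_not (H' := fun v => v.1 < c) (fun v => not_lt.symm)]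
    exact left c
  | all => simp [Cr]
  | none => simp [Cr]

/-- linear inequalities are half-planes -/
theorem isHP_lin (a b c : ℝ) : IsHP (fun v : Pt => a * v.1 + b * v.2 ≤ c) := by
  rcases lt_trichotomy b 0 with hb | hb | hb
  · have : (fun v : Pt => a * v.1 + b * v.2 ≤ c) = (fun v => c / b ≤ ht (-a / b) v) := by
      funext v
      apply propext
      unfold ht
      rw [div_le_iff_of_neg hb]
      have e : -a / b * b = -a := div_mul_cancel₀ _ hb.ne
      have : (v.2 - -a / b * v.1) * b = b * v.2 + a * v.1 := by linear_combination (-v.1) * e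
      rw [this]
      constructor <;> intro h <;> linarith
    rw [this]
    exact IsHP.abovec _ _
  · subst hb
    rcases lt_trichotomy a 0 with ha | ha | ha
    · have : (fun v : Pt => a * v.1 + 0 * v.2 ≤ c) = (fun v => c / a ≤ v.1) := by
        funext v
        apply propext
        rw [div_le_iff_of_neg ha]
        constructor <;> intro h <;> linarith
      rw [this]
      exact IsHP.rightc _
    · subst ha
      by_cases hc : 0 ≤ c
      · have : (fun v : Pt => 0 * v.1 + 0 * v.2 ≤ c) = (fun _ => True) := by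
          funext v
          simp [hc]
        rw [this]
        exact IsHP.all
      · have : (fun v : Pt => 0 * v.1 + 0 * v.2 ≤ c) = (fun _ => False) := by
          funext v
          simp only [zero_mul, add_zero, hc]
        rw [this]
        exact IsHP.none
    · have : (fun v : Pt => a * v.1 + 0 * v.2 ≤ c) = (fun v => v.1 ≤ c / a) := by
        funext v
        apply propext
        rw [le_div_iff₀ ha]
        constructor <;> intro h <;> linarith
      rw [this]
      exact IsHP.leftc _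
  · have : (fun v : Pt => a * v.1 + b * v.2 ≤ c) = (fun v => ht (-a / b) v ≤ c / b) := by
      funext v
      apply propext
      unfold ht
      rw [le_div_iff₀ hb]
      have e : -a / b * b = -a := div_mul_cancel₀ _ hb.ne'
      have : (v.2 - -a / b * v.1) * b = b * v.2 + a * v.1 := by linear_combination (-v.1) * e
      rw [this]
      constructor <;> intro h <;> linarith
    rw [this]
    exact IsHP.belowc _ _

theorem IsHP.compl {H : Pt → Prop} (h : IsHP H) : IsHP (fun v => ¬ H v) := by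
  cases h with
  | below m b =>
    have : (fun v => ¬ ht m v < b) = (fun v => b ≤ ht m v) := by funext v; simp
    rw [this]; exact IsHP.abovec m b
  | belowc m b =>
    have : (fun v => ¬ ht m v ≤ b) = (fun v => b < ht m v) := by funext v; simp
    rw [this]; exact IsHP.above m b
  | above m b =>
    have : (fun v => ¬ b < ht m v) = (fun v => ht m v ≤ b) := by funext v; simp
    rw [this]; exact IsHP.belowc m b
  | abovec m b =>
    have : (fun v => ¬ b ≤ ht m v) = (fun v => ht m v < b) := by funext v; simp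
    rw [this]; exact IsHP.below m b
  | left c =>
    have : (fun v : Pt => ¬ v.1 < c) = (fun v => c ≤ v.1) := by funext v; simp
    rw [this]; exact IsHP.rightc c
  | leftc c =>
    have : (fun v : Pt => ¬ v.1 ≤ c) = (fun v => c < v.1) := by funext v; simp
    rw [this]; exact IsHP.right c
  | right c =>
    have : (fun v : Pt => ¬ c < v.1) = (fun v => v.1 ≤ c) := by funext v; simp
    rw [this]; exact IsHP.leftc c
  | rightc c =>
    have : (fun v : Pt => ¬ c ≤ v.1) = (fun v => v.1 < c) := by funext v; simp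
    rw [this]; exact IsHP.left c
  | all =>
    have : (fun _ : Pt => ¬ True) = (fun _ => False) := by funext v; simp
    rw [this]; exact IsHP.none
  | none =>
    have : (fun _ : Pt => ¬ False) = (fun _ => True) := by funext v; simp
    rw [this]; exact IsHP.all

theorem isHP_lin_lt (a b c : ℝ) : IsHP (fun v : Pt => a * v.1 + b * v.2 < c) := by
  have h := (isHP_lin (-a) (-b) (-c)).compl
  have : (fun v : Pt => ¬ (-a * v.1 + -b * v.2 ≤ -c)) = (fun v => a * v.1 + b * v.2 < c) := by
    funext v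
    apply propext
    rw [not_le]
    constructor <;> intro h <;> linarith
  rwa [this] at h

/-! ### boxes -/

/-- **boxes**: the boundary edges of the intersection of `Q` with finitely many half-planes -/
theorem lov_box {P : Finset Pt} (hP : Good P) (k : ℕ) {Q : Finset Pt} (hQ : Q ⊆ P) {I : Set ℝ}
    (hI : I.OrdConnected) {ι : Type*} (R : Finset ι) (H : ι → Pt → Prop)
    (hH : ∀ i ∈ R, IsHP (H i)) {B : Finset Pt} (hB : ∀ v, v ∈ B ↔ v ∈ Q ∧ ∀ i ∈ R, H i v) :
    #(EdBd P k B I) ≤ #(EdBd P k Q I)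
      + #R * (2 * #(Tch P k Q I) + 2 * #(EdBd P k Q I)) := by
  classical
  have h1 : EdBd P k B I ⊆ EdBd P k Q I ∪ R.biUnion (fun i => Cr P k Q I (H i)) := by
    intro e he
    rw [mem_union, mem_biUnion]
    by_cases hc : (e.1 ∈ Q ∧ e.2 ∉ Q) ∨ (e.1 ∉ Q ∧ e.2 ∈ Q)
    · left
      simp only [EdBd, mem_filter] at he ⊢
      exact ⟨he.1, hc, he.2.2⟩
    · right
      simp only [EdBd, mem_filter] at he
      obtain ⟨he1, he2, he3⟩ := he
      have hq : e.1 ∈ Q ∧ e.2 ∈ Q := by
        rcases he2 with h | h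
        · have := ((hB e.1).1 h.1).1
          tauto
        · have := ((hB e.2).1 h.2).1
          tauto
      have hin : e ∈ EdIn P k Q I := by
        simp only [EdIn, mem_filter]; exact ⟨he1, hq.1, hq.2, he3⟩
      by_contra hcon
      push Not at hcon
      have hall : ∀ i ∈ R, (H i e.1 ↔ H i e.2) := by
        intro i hi
        by_contra hh
        exact hcon i hi (by simp only [Cr, mem_filter]; exact ⟨hin, hh⟩)
      have : e.1 ∈ B ↔ e.2 ∈ B := by
        rw [hB, hB]
        constructor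
        · rintro ⟨_, h⟩; exact ⟨hq.2, fun i hi => (hall i hi).1 (h i hi)⟩
        · rintro ⟨_, h⟩; exact ⟨hq.1, fun i hi => (hall i hi).2 (h i hi)⟩
      tauto
  calc #(EdBd P k B I) ≤ #(EdBd P k Q I ∪ R.biUnion (fun i => Cr P k Q I (H i))) :=
        card_le_card h1
    _ ≤ #(EdBd P k Q I) + #(R.biUnion (fun i => Cr P k Q I (H i))) := card_union_le _ _
    _ ≤ #(EdBd P k Q I) + ∑ i ∈ R, #(Cr P k Q I (H i)) :=
        Nat.add_le_add_left card_biUnion_le _
    _ ≤ #(EdBd P k Q I) + ∑ _i ∈ R, (2 * #(Tch P k Q I) + 2 * #(EdBd P k Q I)) :=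
        Nat.add_le_add_left (sum_le_sum fun i hi => lov hP k hQ hI (hH i hi)) _
    _ = _ := by rw [sum_const, smul_eq_mul]

end Vale.Agent.P065.UB.H616
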