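import Vale.Agent.P065.UB.H616.StarF
import Vale.Agent.P065.H537.PreDefs

/-!
# P065, upper bound: the field `star` of `PreC` from `JView.star` (helper616)
-/

set_option autoImplicit false

namespace Vale.Agent.P065.UB.H616

open Finset Vale.Agent.P065.UB Vale.Agent.P065.H183
open Vale.Agent.P065.H537 (Bx)

open Classical in
/-- **star field of `PreC`**, with `n = lam`, `m = #Q / lam ^ 2` and the images `PP Q`, `PP (R w)` -/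
theorem star_pre {K lam : ℝ} {Q : Finset Pt} {W : Finset ℕ} {I : ℕ → Set ℝ} {R : ℕ → Finset Pt}
    (h : JView K lam Q W I R) (hlam : 0 < lam) {σ m0 : ℝ} {o : Pt} (hσ : σ = 1 ∨ σ = -1)
    {α β γ α' β' γ' : ℝ} (hdet : α * β' - α' * β ≠ 0) {K' : ℝ} (hK' : 216 * K ≤ K')
    {W' : Finset ℕ} (hW' : W' ⊆ W) (al t r s₀ h₀ : ℝ) :
    ∑ w ∈ W', (#{q ∈ PP (R w) σ m0 o α β γ α' β' γ' | Bx al t r s₀ h₀ q} : ℝ) ^ 3 ≤
      K' * (lam * (#Q / lam ^ 2) *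
        (#{q ∈ PP Q σ m0 o α β γ α' β' γ' | Bx al t r s₀ h₀ q} : ℝ) ^ 2 +
          (lam ^ 2 * (#Q / lam ^ 2)) ^ 2) := by
  have hsb := star_box (m0 := m0) (o := o) (γ := γ) (γ' := γ') h hσ hdet al s₀ h₀ t r
  have e : ∀ M : Finset Pt, #{q ∈ PP M σ m0 o α β γ α' β' γ' | Bx al t r s₀ h₀ q}
      = #{p ∈ PP M σ m0 o α β γ α' β' γ' |
        |p.1 + al * p.2 - s₀| ≤ t ∧ |p.2 - h₀| ≤ r} := by
    intro M
    congr 1
    ext p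
    rw [mem_filter, mem_filter]
    rfl
  rw [e]
  have e2 : ∑ w ∈ W, (#{q ∈ PP (R w) σ m0 o α β γ α' β' γ' | Bx al t r s₀ h₀ q} : ℝ) ^ 3
      = ∑ w ∈ W, (#{p ∈ PP (R w) σ m0 o α β γ α' β' γ' |
        |p.1 + al * p.2 - s₀| ≤ t ∧ |p.2 - h₀| ≤ r} : ℝ) ^ 3 :=
    sum_congr rfl fun w _ => by rw [e]
  rw [← e2] at hsb
  set q : ℝ := (#{p ∈ PP Q σ m0 o α β γ α' β' γ' |
        |p.1 + al * p.2 - s₀| ≤ t ∧ |p.2 - h₀| ≤ r} : ℝ)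
  have hsub : ∑ w ∈ W', (#{q ∈ PP (R w) σ m0 o α β γ α' β' γ' | Bx al t r s₀ h₀ q} : ℝ) ^ 3
      ≤ ∑ w ∈ W, (#{q ∈ PP (R w) σ m0 o α β γ α' β' γ' | Bx al t r s₀ h₀ q} : ℝ) ^ 3 :=
    sum_le_sum_of_subset_of_nonneg hW' fun _ _ _ => by positivity
  refine hsub.trans ?_
  have h1 : 216 * K * (#Q * q ^ 2 + lam * (#Q : ℝ) ^ 2) ≤
      K' * (#Q * q ^ 2 + lam * (#Q : ℝ) ^ 2) :=
    mul_le_mul_of_nonneg_right hK' (by positivity)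
  have h2 : K' * (lam * (#Q / lam ^ 2) * q ^ 2 + (lam ^ 2 * (#Q / lam ^ 2)) ^ 2)
      = K' * (#Q * q ^ 2 + lam * (#Q : ℝ) ^ 2) / lam := by
    field_simp
  rw [h2, le_div_iff₀ hlam]
  linarith

end Vale.Agent.P065.UB.H616
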