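import Vale.Agent.P065.H537.PreDefs

/-!
# P065, upper bound: the field `star` of `GridQ` from `PreC.star` (helper616)

`cl` = any rounding to cells (error `≤ δ`); a cell `p ∈ C a s` contains `≥ m / K₁` points of
`R (om a s)`; a pair (window, cell) is used by at most `K₂` pairs `(a, s)`.
-/

set_option autoImplicit false

namespace Vale.Agent.P065.UB.H616

open Finset
open Vale.Agent.P065.H537 (Bx)

theorem sum_cube_le' {ι : Type*} (F : Finset ι) (f : ι → ℝ) (hf : ∀ i ∈ F, 0 ≤ f i) :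
    ∑ i ∈ F, f i ^ 3 ≤ (∑ i ∈ F, f i) ^ 3 := by
  have hS : 0 ≤ ∑ i ∈ F, f i := sum_nonneg hf
  calc ∑ i ∈ F, f i ^ 3 ≤ ∑ i ∈ F, f i * (∑ i ∈ F, f i) ^ 2 := by
        refine sum_le_sum fun i hi => ?_
        have h1 : f i ≤ ∑ i ∈ F, f i := single_le_sum hf hi
        have h2 : f i ^ 2 ≤ (∑ i ∈ F, f i) ^ 2 := pow_le_pow_left₀ (hf i hi) h1 2
        calc f i ^ 3 = f i * f i ^ 2 := by ring
          _ ≤ _ := mul_le_mul_of_nonneg_left h2 (hf i hi)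
    _ = (∑ i ∈ F, f i) ^ 3 := by rw [← sum_mul]; ring

open Classical in
/-- **the field `star` of `GridQ`** -/
theorem starX {ι : Type} {K n m δ K₁ K₂ : ℝ} {Q0 : Finset (ℝ × ℝ)} {W : Finset ι}
    {R : ι → Finset (ℝ × ℝ)} (hK : 1 ≤ K) (hδ : 0 < δ) (hn : 1 ≤ n) (hm : 0 < m)
    (hnm : n ^ 4 ≤ m) (hK₁ : 1 ≤ K₁) (hK₂ : 1 ≤ K₂)
    (hstar : ∀ al t r s₀ h₀ : ℝ, |al| ≤ K → δ ≤ t → δ ≤ r →
      ∑ w ∈ W, (#{q ∈ R w | Bx al t r s₀ h₀ q} : ℝ) ^ 3 ≤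
        K * (n * m * (#{q ∈ Q0 | Bx al t r s₀ h₀ q} : ℝ) ^ 2 + (n ^ 2 * m) ^ 2))
    {cl : ℝ × ℝ → ℝ × ℝ} (hcl : ∀ q, |q.1 - (cl q).1| ≤ δ ∧ |q.2 - (cl q).2| ≤ δ)
    {A : Finset ℝ} {S : ℝ → Finset ℝ} {C : ℝ → ℝ → Finset (ℝ × ℝ)} {om : ℝ → ℝ → ι}
    (hom : ∀ a ∈ A, ∀ s ∈ S a, om a s ∈ W)
    (hC : ∀ a ∈ A, ∀ s ∈ S a, ∀ p ∈ C a s,
      m ≤ K₁ * #{q ∈ R (om a s) | q ∈ Q0 ∧ cl q = p})
    (hmul : ∀ w ∈ W, ∀ p : ℝ × ℝ,
      (∑ a ∈ A, #{s ∈ S a | om a s = w ∧ p ∈ C a s} : ℝ) ≤ K₂)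
    {al s0 h0 t r : ℝ} (hal : |al| ≤ K) (ht : δ ≤ t) (hr : δ ≤ r) :
    ∑ a ∈ A, ∑ s ∈ S a, (m * #{p ∈ C a s | |p.1 + al * p.2 - s0| ≤ t ∧ |p.2 - h0| ≤ r}) ^ 3
      ≤ (2 * K * K₁ ^ 2 * (K₁ * K₂) ^ 3) * n * m *
        (#{p ∈ Q0 | |p.1 + al * p.2 - s0| ≤ (K + 2) * t ∧ |p.2 - h0| ≤ 2 * r} : ℝ) ^ 2 := by
  have hK0 : 0 < K := by linarith
  have hK₁0 : 0 < K₁ := by linarith
  have hK₂0 : 0 < K₂ := by linarith
  have hn0 : 0 < n := by linarith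
  have ht0 : 0 < t := by linarith
  have hr0 : 0 < r := by linarith
  have ht' : δ ≤ (K + 2) * t := by nlinarith
  have hr' : δ ≤ 2 * r := by linarith
  have hst := hstar al ((K + 2) * t) (2 * r) s0 h0 hal ht' hr'
  set Z : Finset (ℝ × ℝ) := {q ∈ Q0 | Bx al ((K + 2) * t) (2 * r) s0 h0 q} with hZ
  set zR : ι → ℝ := fun w => (#{q ∈ R w | Bx al ((K + 2) * t) (2 * r) s0 h0 q} : ℝ) with hzR
  have hZeq : (#{p ∈ Q0 | |p.1 + al * p.2 - s0| ≤ (K + 2) * t ∧ |p.2 - h0| ≤ 2 * r} : ℝ) = #Z := by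
    congr 2
    ext p
    rw [hZ, mem_filter, mem_filter]
    rfl
  rw [hZeq]
  -- points of `R w` in the cell `p`
  set nw : ι → ℝ × ℝ → ℕ := fun w p => #{q ∈ R w | q ∈ Q0 ∧ cl q = p} with hnw
  set Jb : ℝ × ℝ → Prop := fun p => |p.1 + al * p.2 - s0| ≤ t ∧ |p.2 - h0| ≤ r with hJb
  set Y : Finset (ℝ × ℝ) := A.biUnion (fun a => (S a).biUnion (C a)) with hY
  have hcellB : ∀ q, Jb (cl q) → Bx al ((K + 2) * t) (2 * r) s0 h0 q := by
    intro q hJ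
    obtain ⟨e1, e2⟩ := hcl q
    refine ⟨?_, ?_⟩
    · have e3 : |(cl q).1 + al * (cl q).2 - s0| ≤ t := hJ.1
      have : q.1 + al * q.2 - s0 = ((cl q).1 + al * (cl q).2 - s0)
          + (q.1 - (cl q).1) + al * (q.2 - (cl q).2) := by ring
      rw [this]
      refine (abs_add_three _ _ _).trans ?_
      rw [abs_mul]
      have h1 : |al| * |q.2 - (cl q).2| ≤ K * δ :=
        mul_le_mul hal e2 (abs_nonneg _) hK0.le
      have h2 : K * δ ≤ K * t := mul_le_mul_of_nonneg_left ht hK0.le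
      linarith
    · have e3 : |(cl q).2 - h0| ≤ r := hJ.2
      have : q.2 - h0 = ((cl q).2 - h0) + (q.2 - (cl q).2) := by ring
      rw [this]
      refine (abs_add_le _ _).trans ?_
      linarith
  have hnsum : ∀ w ∈ W, ∑ p ∈ Y with Jb p, (nw w p : ℝ) ≤ zR w := by
    intro w hw
    have h1 : ∑ p ∈ Y with Jb p, nw w p ≤ #{q ∈ R w | Bx al ((K + 2) * t) (2 * r) s0 h0 q} := by
      rw [hnw]
      simp only
      rw [← card_biUnion]
      · refine card_le_card fun q hq => ?_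
        rw [mem_biUnion] at hq
        obtain ⟨p, hp, hq⟩ := hq
        rw [mem_filter] at hq hp ⊢
        exact ⟨hq.1, hcellB q (hq.2.2 ▸ hp.2)⟩
      · intro p _ p' _ hne
        rw [Function.onFun, disjoint_left]
        intro q hq hq'
        exact hne ((mem_filter.1 hq).2.2.symm.trans (mem_filter.1 hq').2.2)
    show ∑ p ∈ Y with Jb p, (nw w p : ℝ) ≤
      (#{q ∈ R w | Bx al ((K + 2) * t) (2 * r) s0 h0 q} : ℝ)
    exact_mod_cast h1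
  -- the sums over the pairs `(a, s)` with window `w`
  set F : Finset (Σ _ : ℝ, ℝ) := A.sigma S with hF
  set c : (Σ _ : ℝ, ℝ) → ℝ := fun e => m * #{p ∈ C e.1 e.2 | Jb p} with hc
  have hc0 : ∀ e, 0 ≤ c e := fun e => by rw [hc]; positivity
  have hLHS : ∑ a ∈ A, ∑ s ∈ S a,
      (m * #{p ∈ C a s | |p.1 + al * p.2 - s0| ≤ t ∧ |p.2 - h0| ≤ r}) ^ 3
      = ∑ e ∈ F, c e ^ 3 := by
    rw [hF, sum_sigma]
  have hFW : ∀ e ∈ F, om e.1 e.2 ∈ W := by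
    intro e he
    rw [hF, mem_sigma] at he
    exact hom e.1 he.1 e.2 he.2
  have hzR0 : ∀ w, 0 ≤ zR w := fun w => by rw [hzR]; positivity
  have hTw : ∀ w ∈ W, ∑ e ∈ F with om e.1 e.2 = w, c e ≤ K₁ * K₂ * zR w := by
    intro w hw
    have e1 : ∀ e ∈ ({e ∈ F | om e.1 e.2 = w} : Finset (Σ _ : ℝ, ℝ)),
        c e = ∑ p ∈ Y with Jb p, (if p ∈ C e.1 e.2 then m else 0) := by
      intro e he
      rw [mem_filter, hF, mem_sigma] at he
      rw [hc]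
      simp only
      rw [← sum_filter, sum_const, nsmul_eq_mul, mul_comm]
      congr 3
      ext p
      rw [mem_filter, mem_filter, mem_filter]
      constructor
      · rintro ⟨h1, h2⟩
        refine ⟨⟨?_, h2⟩, h1⟩
        rw [hY, mem_biUnion]
        exact ⟨e.1, he.1.1, mem_biUnion.2 ⟨e.2, he.1.2, h1⟩⟩
      · rintro ⟨⟨_, h2⟩, h1⟩
        exact ⟨h1, h2⟩
    rw [sum_congr rfl e1, sum_comm]
    have e2 : ∀ p ∈ ({p ∈ Y | Jb p} : Finset (ℝ × ℝ)),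
        ∑ e ∈ F with om e.1 e.2 = w, (if p ∈ C e.1 e.2 then m else 0)
          ≤ K₁ * K₂ * nw w p := by
      intro p _
      rw [← sum_filter, sum_const, nsmul_eq_mul, filter_filter]
      by_cases hne : ({e ∈ F | om e.1 e.2 = w ∧ p ∈ C e.1 e.2} : Finset (Σ _ : ℝ, ℝ)).Nonempty
      · obtain ⟨e, he⟩ := hne
        rw [mem_filter, hF, mem_sigma] at he
        have h1 : m ≤ K₁ * nw w p := by
          have := hC e.1 he.1.1 e.2 he.1.2 p he.2.2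
          rw [he.2.1] at this
          exact this
        have h2 : (#{e ∈ F | om e.1 e.2 = w ∧ p ∈ C e.1 e.2} : ℝ) ≤ K₂ := by
          have e3 : #{e ∈ F | om e.1 e.2 = w ∧ p ∈ C e.1 e.2}
              = ∑ a ∈ A, #{s ∈ S a | om a s = w ∧ p ∈ C a s} := by
            have : ({e ∈ F | om e.1 e.2 = w ∧ p ∈ C e.1 e.2} : Finset (Σ _ : ℝ, ℝ))
                = A.sigma (fun a => {s ∈ S a | om a s = w ∧ p ∈ C a s}) := by
              ext ⟨a, s⟩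
              simp only [hF, mem_filter, mem_sigma]
              tauto
            rw [this, card_sigma]
          rw [e3]
          push_cast
          exact hmul w hw p
        calc (#{e ∈ F | om e.1 e.2 = w ∧ p ∈ C e.1 e.2} : ℝ) * m ≤ K₂ * m :=
              mul_le_mul_of_nonneg_right h2 hm.le
          _ ≤ K₂ * (K₁ * nw w p) := mul_le_mul_of_nonneg_left h1 (by linarith)
          _ = K₁ * K₂ * nw w p := by ring
      · rw [not_nonempty_iff_eq_empty] at hne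
        rw [hne, card_empty, Nat.cast_zero, zero_mul]
        positivity
    refine (sum_le_sum e2).trans ?_
    rw [← mul_sum]
    exact mul_le_mul_of_nonneg_left (hnsum w hw) (by positivity)
  have hsum : ∑ e ∈ F, c e ^ 3 ≤ (K₁ * K₂) ^ 3 * ∑ w ∈ W, zR w ^ 3 := by
    rw [← sum_fiberwise_of_maps_to hFW, mul_sum]
    refine sum_le_sum fun w hw => ?_
    refine (sum_cube_le' _ _ fun e _ => hc0 e).trans ?_
    have h1 : 0 ≤ ∑ e ∈ F with om e.1 e.2 = w, c e := sum_nonneg fun e _ => hc0 e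
    calc (∑ e ∈ F with om e.1 e.2 = w, c e) ^ 3 ≤ (K₁ * K₂ * zR w) ^ 3 :=
          pow_le_pow_left₀ h1 (hTw w hw) 3
      _ = (K₁ * K₂) ^ 3 * zR w ^ 3 := by ring
  rw [hLHS]
  by_cases hne : ∃ e ∈ F, c e ≠ 0
  · obtain ⟨e, he, hce⟩ := hne
    have he' := he
    rw [hF, mem_sigma] at he
    have hne2 : ({p ∈ C e.1 e.2 | Jb p} : Finset (ℝ × ℝ)).Nonempty := by
      rw [nonempty_iff_ne_empty]
      intro h0
      apply hce
      rw [hc]
      simp only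
      rw [h0, card_empty, Nat.cast_zero, mul_zero]
    obtain ⟨p, hp⟩ := hne2
    rw [mem_filter] at hp
    have hmZ : m ≤ K₁ * #Z := by
      have h1 := hC e.1 he.1 e.2 he.2 p hp.1
      refine h1.trans (mul_le_mul_of_nonneg_left ?_ (by linarith))
      have : ({q ∈ R (om e.1 e.2) | q ∈ Q0 ∧ cl q = p} : Finset (ℝ × ℝ)) ⊆ Z := by
        intro q hq
        rw [mem_filter] at hq
        rw [hZ, mem_filter]
        exact ⟨hq.2.1, hcellB q (hq.2.2 ▸ hp.2)⟩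
      exact_mod_cast card_le_card this
    -- absorb the additive term
    have habs : (n ^ 2 * m) ^ 2 ≤ K₁ ^ 2 * (n * m * (#Z : ℝ) ^ 2) := by
      have h1 : m ^ 2 ≤ (K₁ * #Z) ^ 2 := pow_le_pow_left₀ hm.le hmZ 2
      calc (n ^ 2 * m) ^ 2 = n ^ 4 * m ^ 2 := by ring
        _ ≤ m * m ^ 2 := by gcongr
        _ ≤ n * (m * m ^ 2) := le_mul_of_one_le_left (by positivity) hn
        _ ≤ n * (m * (K₁ * #Z) ^ 2) := by gcongr
        _ = _ := by ring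
    have hS3 : ∑ w ∈ W, zR w ^ 3 ≤ 2 * K * K₁ ^ 2 * (n * m * (#Z : ℝ) ^ 2) := by
      have h2 : n * m * (#Z : ℝ) ^ 2 ≤ K₁ ^ 2 * (n * m * (#Z : ℝ) ^ 2) :=
        le_mul_of_one_le_left (by positivity) (one_le_pow₀ hK₁)
      calc ∑ w ∈ W, zR w ^ 3 ≤ K * (n * m * (#Z : ℝ) ^ 2 + (n ^ 2 * m) ^ 2) := hst
        _ ≤ K * (K₁ ^ 2 * (n * m * (#Z : ℝ) ^ 2) + K₁ ^ 2 * (n * m * (#Z : ℝ) ^ 2)) := by
            gcongr
        _ = _ := by ring
    calc ∑ e ∈ F, c e ^ 3 ≤ (K₁ * K₂) ^ 3 * ∑ w ∈ W, zR w ^ 3 := hsum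
      _ ≤ (K₁ * K₂) ^ 3 * (2 * K * K₁ ^ 2 * (n * m * (#Z : ℝ) ^ 2)) := by gcongr
      _ = (2 * K * K₁ ^ 2 * (K₁ * K₂) ^ 3) * n * m * (#Z : ℝ) ^ 2 := by ring
  · push Not at hne
    rw [sum_congr rfl (fun e he => by rw [hne e he])]
    simp only [ne_eq, OfNat.ofNat_ne_zero, not_false_eq_true, zero_pow, sum_const_zero]
    positivity

end Vale.Agent.P065.UB.H616
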